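import Mathlib.Computability.TuringMachine.Computable
import Mathlib.Combinatorics.SimpleGraph.Finite
import Mathlib.Analysis.SpecialFunctions.Log.Base
import Mathlib.Data.NNRat.Lemmas
import Mathlib.Data.Set.Card

/-!
Fully polynomial randomised approximation schemes as polynomial time Turing machines which read a
random number; perfect matchings, subgraphs with prescribed parities, spin systems.
-/

namespace Vale.Agent.N308T

/-- A list of natural numbers as a word: a binary digit `b` is written `1 b`, and every number ends
with `0`. -/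
def word (l : List ℕ) : List Bool :=
  l.flatMap fun a => (a.bits.flatMap fun b => [true, b]) ++ [false]

/-- The quantity `Z x`, for instances `x` given by the list of numbers `code x`, has a fully
polynomial randomised approximation scheme: a function `alg`, computed in polynomial time by a
deterministic Turing machine with finite alphabets, reads a random number `r` with `T` free binary
digits, the rationals `ε`, `δ` and the instance. When `T` is at least a fixed power of (bit length
of the instance) `+ 1 / ε + log₂ (1 / δ)`, then for a fraction at least `1 - δ` of all `r` the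
output is a fraction `a / b` within the factor `1 ± ε` of `Z x`. -/
def FPRAS {ι : Type} (code : ι → List ℕ) (Z : ι → ℝ) : Prop :=
  ∃ (alg : List ℕ → List ℕ) (M : Turing.TM2ComputableInPolyTime word word alg),
    (∀ k, Finite (M.tm.Γ k)) ∧ ∃ d : ℕ, ∀ (x : ι) (ε δ : ℚ), 0 < ε → ε < 1 → 0 < δ → δ < 1 / 2 →
      ∀ T : ℕ, ((word (code x)).length + 1 / (ε : ℝ) + Real.logb 2 (1 / (δ : ℝ))) ^ d ≤ T →
        (1 - δ : ℝ) * 2 ^ T ≤ {r : ℕ | 2 ^ T ≤ r ∧ r < 2 ^ (T + 1) ∧ ∃ a b : ℕ, 0 < b ∧
          alg (r :: ε.num.natAbs :: ε.den :: δ.num.natAbs :: δ.den :: code x) = [a, b] ∧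
          (1 - ε : ℝ) * Z x ≤ a / b ∧ (a / b : ℝ) ≤ (1 + ε) * Z x}.ncard

/-- The entries of a square table, row after row. -/
def rows {n : ℕ} (t : Fin n → Fin n → ℕ) : List ℕ :=
  (List.finRange n).flatMap fun i => (List.finRange n).map fun j => t i j

open Classical in
/-- A graph is given by the number of vertices and the adjacency matrix. -/
noncomputable def graphCode {n : ℕ} (G : SimpleGraph (Fin n)) : List ℕ :=
  n :: rows fun i j => if G.Adj i j then 1 else 0

/-- A set of vertices is given by its indicator vector. -/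
def setCode {n : ℕ} (T : Finset (Fin n)) : List ℕ := List.ofFn fun v => if v ∈ T then 1 else 0

/-- A matrix of nonnegative rationals is given by its size, the numerators and the denominators. -/
def matrixCode {n : ℕ} (A : Fin n → Fin n → ℚ≥0) : List ℕ :=
  n :: (rows (fun i j => (A i j).num) ++ rows fun i j => (A i j).den)

/-- A rational number is given by the positive and negative parts of its numerator and by its
denominator. -/
def ratCode (q : ℚ) : List ℕ := [q.num.toNat, (-q.num).toNat, q.den]

/-- The number of sets of edges of `G` which cover every vertex exactly once. -/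
noncomputable def perfectMatchings {n : ℕ} (G : SimpleGraph (Fin n)) : ℕ :=
  Nat.card {M : Set (Sym2 (Fin n)) // M ⊆ G.edgeSet ∧ ∀ v : Fin n, ∃! e, e ∈ M ∧ v ∈ e}

open Classical in
/-- The sum over the simple graphs `H` whose vertices of odd degree are exactly those of `T`, of
the product of the entries `A i j` over the edges `ij` of `H`, `i < j`. -/
noncomputable def joinSum {n : ℕ} (A : Fin n → Fin n → ℚ≥0) (T : Finset (Fin n)) : ℝ :=
  ∑ H : SimpleGraph (Fin n) with ∀ v, Odd (H.neighborSet v).ncard ↔ v ∈ T,
    ∏ p : Fin n × Fin n with p.1 < p.2 ∧ H.Adj p.1 p.2, (A p.1 p.2 : ℝ)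

open Classical in
/-- The partition function of the two-state spin system on `G` with the interaction matrix
`(β, α; α, γ)`. -/
noncomputable def twoSpin {n : ℕ} (G : SimpleGraph (Fin n)) (α β γ : ℚ) : ℝ :=
  ∑ σ : Fin n → Bool, ∏ p : Fin n × Fin n with p.1 < p.2 ∧ G.Adj p.1 p.2,
    if σ p.1 = σ p.2 then (if σ p.1 then (β : ℝ) else γ) else α

/-- A constraint `a + b σᵢ σⱼ + c σᵢ σₖ + d σⱼ σₖ` on three of `n` spins. -/
structure Constraint (n : ℕ) where
  /-- first spin -/
  u1 : Fin n
  /-- second spin -/
  u2 : Fin n
  /-- third spin -/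
  u3 : Fin n
  /-- constant coefficient -/
  f0 : ℕ
  /-- coefficient of `σᵢ σⱼ` -/
  f12 : ℕ
  /-- coefficient of `σᵢ σₖ` -/
  f13 : ℕ
  /-- coefficient of `σⱼ σₖ` -/
  f23 : ℕ

/-- A list of constraints is given by seven numbers for each constraint. -/
def cspCode {n : ℕ} (L : List (Constraint n)) : List ℕ :=
  L.flatMap fun C => [C.u1, C.u2, C.u3, C.f0, C.f12, C.f13, C.f23]

/-- The sum over all spins `σ v = ± 1` of the product of the spins in `T` and the constraints. -/
noncomputable def cspSum {n : ℕ} (T : Finset (Fin n)) (L : List (Constraint n)) : ℝ :=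
  ∑ σ : Fin n → ℤˣ, ((∏ v ∈ T, (σ v : ℤ)) * (L.map fun C => (C.f0 + C.f12 * σ C.u1 * σ C.u2 +
    C.f13 * σ C.u1 * σ C.u3 + C.f23 * σ C.u2 * σ C.u3 : ℤ)).prod : ℤ)

end Vale.Agent.N308T
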