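import Vale.Agent.N308T.Spin

/-!
The four counting problems.
-/

namespace Vale.Agent.N308T

open Finset Vale.Agent.Lib.PolyTime Vale.Agent.P308 SimpleGraph
open Vale.Agent.N308 hiding FPRAS word word_eq fpras_of_graph master graphCode matrixCode
  fpras_graph

variable {n : ℕ}

theorem fpras_graph : FPRAS (fun G : Σ n, SimpleGraph (Fin n) => graphCode G.2)
    fun G => perfectMatchings G.2 := by
  classical
  refine master (num := tC 0) (den := fun _ _ _ => 1) (f := fun _ _ => 1) pt_nC pbd_nC (pt_tC 0)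
    (PT.const 1) (PT.const 1) (PT.const 1) (PT.const 1) (fun _ _ _ => by omega)
    (fun _ _ _ _ _ => one_ne_zero) (fun _ => one_pos) fun G => ?_
  have e : graphCode G.2 = G.1 :: (table (fun i j => if G.2.Adj i j then 1 else 0) ++ []) := by
    rw [List.append_nil]
    rfl
  rw [e, nC_eq, FS_eq (A := fun i j => if G.2.Adj i j then 1 else 0) (f := fun _ => 1)
    (fun i j => ?_) fun _ => rfl]
  · congr 1
    refine (numPM_eq_F _ fun a b => ?_).trans (F_eq_factorSum _ fun _ => 1)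
    rcases lt_trichotomy a b with h | rfl | h
    · simp only [wA, sw_mk, h, h.not_gt, if_true, if_false, add_zero]
      split_ifs <;> simp
    · simp [wA]
    · simp only [wA, sw_mk, h, h.not_gt, if_true, if_false, zero_add, G.2.adj_comm b a]
      split_ifs <;> simp
  · rw [tC_zero]
    split_ifs <;> simp

theorem sum_pow (Φ : Finset ℕ → ℝ) :
    ∑ V ∈ (range n).powerset, Φ V = ∑ W : Finset (Fin n), Φ (W.image Fin.val) := by
  rw [show (range n).powerset = univ.powerset.image (image (Fin.val : Fin n → ℕ)) by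
    rw [← powerset_image, ← range_eq], sum_image fun U _ U' _ h =>
      image_injective Fin.val_injective h, powerset_univ]

theorem sp_image (W : Finset (Fin n)) (v : Fin n) : sp (W.image Fin.val) v = sp W v :=
  if_congr Fin.val_injective.mem_finset_image rfl rfl

theorem sum_spin {β : Type} [Fintype β] [DecidableEq β] {e : β → ℝ} {b0 b1 : β}
    (h : ∀ b, b ≠ b1 → b = b0) (h0 : e b0 = 1) (h1 : e b1 = -1) (Φ : (Fin n → ℝ) → ℝ) :
    ∑ W : Finset (Fin n), Φ (sp W) = ∑ σ : Fin n → β, Φ fun v => e (σ v) := by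
  have h2 : b0 ≠ b1 := fun h => by rw [h, h1] at h0; norm_num at h0
  refine sum_bij' (fun W _ v => if v ∈ W then b1 else b0)
    (fun σ _ => univ.filter fun v => σ v = b1) (fun _ _ => mem_univ _) (fun _ _ => mem_univ _)
    (fun W _ => ?_) (fun σ _ => funext fun v => ?_) fun W _ => congrArg Φ (funext fun v => ?_)
  · ext v
    simp [h2]
  · by_cases a : σ v = b1
    · simp [a]
    · simp [h _ a, h2]
  · unfold sp
    split_ifs with a <;> simp [h0, h1, a]

theorem prod_sq {M : Type} [CommMonoid M] (φ : ℕ → ℕ → M) :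
    ∏ k ∈ range (n * n), φ (k / n) (k % n) = ∏ p : Fin n × Fin n, φ p.1 p.2 := by
  rw [← Fin.prod_univ_eq_prod_range (fun k => φ (k / n) (k % n)), ← finProdFinEquiv.prod_comp]
  refine prod_congr rfl fun p _ => ?_
  have := p.2.2
  rw [finProdFinEquiv_apply_val, Nat.add_mul_div_left _ _ (by omega), Nat.add_mul_mod_self_left,
    Nat.div_eq_of_lt this, Nat.mod_eq_of_lt this, zero_add]

open Classical in
theorem expand (φ : Fin n × Fin n → ℝ) : ∏ p : Fin n × Fin n with p.1 < p.2, (1 + φ p) =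
    ∑ H : SimpleGraph (Fin n), ∏ p : Fin n × Fin n with p.1 < p.2 ∧ H.Adj p.1 p.2, φ p := by
  rw [prod_one_add]
  refine (sum_bij' (fun H _ => univ.filter fun p : Fin n × Fin n => p.1 < p.2 ∧ H.Adj p.1 p.2)
    (fun M _ => fromRel fun a b => (a, b) ∈ M) (fun H _ => ?_) (fun _ _ => mem_univ _)
    (fun H _ => ?_) (fun M hM => ?_) fun _ _ => rfl).symm
  · exact mem_powerset.2 (monotone_filter_right _ fun p _ h => h.1)
  · ext a b
    simp only [fromRel_adj, mem_filter, mem_univ, true_and]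
    refine ⟨fun h => h.2.elim (·.2) (·.2.symm), fun h => ⟨h.ne, ?_⟩⟩
    exact (lt_or_gt_of_ne h.ne).imp (⟨·, h⟩) (⟨·, h.symm⟩)
  · ext ⟨a, b⟩
    have h := fun p (hp : p ∈ M) => (mem_filter.1 (mem_powerset.1 hM hp)).2
    simp only [fromRel_adj, mem_filter, mem_univ, true_and]
    exact ⟨fun h1 => h1.2.2.elim id fun h2 => absurd (h _ h2) h1.1.not_gt,
      fun h1 => ⟨h _ h1, (h _ h1).ne, Or.inl h1⟩⟩

open Classical in
theorem prod_deg (H : SimpleGraph (Fin n)) (s : Fin n → ℝ) :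
    ∏ p : Fin n × Fin n with p.1 < p.2 ∧ H.Adj p.1 p.2, s p.1 * s p.2 =
      ∏ v, s v ^ (H.neighborSet v).ncard := by
  have h1 : ∏ p : Fin n × Fin n with p.1 < p.2 ∧ H.Adj p.1 p.2, s p.2 =
      ∏ p : Fin n × Fin n with ¬p.1 < p.2 ∧ H.Adj p.1 p.2, s p.1 := by
    refine prod_equiv (Equiv.prodComm _ _) (fun p => ?_) fun _ _ => rfl
    simp only [mem_filter, mem_univ, true_and, Equiv.prodComm_apply, Prod.fst_swap, Prod.snd_swap]
    exact ⟨fun h => ⟨h.1.not_gt, h.2.symm⟩, fun h =>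
      ⟨lt_of_le_of_ne (not_lt.1 h.1) h.2.ne', h.2.symm⟩⟩
  rw [prod_mul_distrib, h1]
  simp only [and_comm (b := H.Adj _ _), ← filter_filter]
  rw [prod_filter_mul_prod_filter_not, prod_filter, Fintype.prod_prod_type]
  refine prod_congr rfl fun v _ => ?_
  dsimp only
  rw [← prod_filter, prod_const, nc_eq, ← card_neighborFinset_eq_degree, neighborFinset_eq_filter]

theorem join_eq (A : Fin n → Fin n → ℚ≥0) (T : Finset (Fin n)) :
    2 ^ n * joinSum A T = ∑ W : Finset (Fin n), (∏ v, sp W v ^ (if v ∈ T then 1 else 0)) *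
      ∏ p : Fin n × Fin n with p.1 < p.2, (1 + A p.1 p.2 * (sp W p.1 * sp W p.2)) := by
  classical
  simp only [expand, mul_sum]
  rw [sum_comm, joinSum, sum_filter, mul_sum]
  refine sum_congr rfl fun H _ => ?_
  simp only [prod_mul_distrib (f := fun p : Fin n × Fin n => (A p.1 p.2 : ℝ)), prod_deg,
    mul_left_comm _ (∏ p : Fin n × Fin n with _, (A p.1 p.2 : ℝ)), ← prod_mul_distrib, ← pow_add,
    ← mul_sum]
  simp only [← zpow_natCast (sp _ _)]
  rw [← powerset_univ, ← prod_par]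
  simp only [zpow_natCast]
  split_ifs with h
  · rw [mul_comm]
    congr 1
    rw [prod_congr rfl (g := fun _ => 2) fun v _ => ?_]
    · simp
    · rw [Even.neg_one_pow, one_add_one_eq_two]
      have := h v
      split_ifs with a
      · exact odd_one.add_odd (this.2 a)
      · rw [zero_add, ← Nat.not_odd_iff_even]
        exact mt this.1 a
  · obtain ⟨v, hv⟩ := not_forall.1 h
    rw [prod_eq_zero (mem_univ v), mul_zero, mul_zero]
    rw [Odd.neg_one_pow, add_neg_cancel]
    split_ifs with a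
    · exact odd_one.add_even (Nat.not_odd_iff_even.1 fun b => hv (iff_of_true b a))
    · rw [zero_add]
      by_contra b
      exact hv (iff_of_false b a)

/-- the ends of the pair number `p / 3`, and a third spin -/
def vr (n z p : ℕ) : ℕ := if p % 3 = 0 then p / 3 / n else if p % 3 = 1 then p / 3 % n else z

theorem pt_vr {n z : List ℕ → ℕ} (hn : PT ∅ n) (hz : PT ∅ z) :
    PT ∅ fun p : List ℕ × ℕ => vr (n p.1) (z p.1) p.2 :=
  have a := PT.mod (PT.snd' : PT ∅ fun p : List ℕ × ℕ => p.2) (PT.const 3)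
  have b := PT.div (PT.snd' : PT ∅ fun p : List ℕ × ℕ => p.2) (PT.const 3)
  PT.ite (PT.eqNat a (PT.const 0)) (PT.div b (hn.comp PT.fst')) (PT.ite (PT.eqNat a (PT.const 1))
    (PT.mod b (hn.comp PT.fst')) (hz.comp PT.fst'))

theorem vr_lt {n z N p : ℕ} (h : p < 3 * (n * n)) (h1 : n ≤ N) (h2 : 0 < n → z < N) :
    vr n z p < N := by
  have a : 0 < n := Nat.pos_of_ne_zero fun h0 => by simp [h0] at h
  have b : p / 3 / n < n := (Nat.div_lt_iff_lt_mul a).2 (by omega)
  have c := Nat.mod_lt (p / 3) a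
  have := h2 a
  unfold vr
  split_ifs <;> omega

theorem vr0 (n z k : ℕ) : vr n z (3 * k) = k / n := by
  rw [vr, if_pos (by omega), show 3 * k / 3 = k by omega]

theorem vr1 (n z k : ℕ) : vr n z (3 * k + 1) = k % n := by
  rw [vr, if_neg (by omega), if_pos (by omega), show (3 * k + 1) / 3 = k by omega]

theorem vr2 (n z k : ℕ) : vr n z (3 * k + 2) = z := by
  rw [vr, if_neg (by omega), if_neg (by omega)]

theorem pt_cell (b : ℕ) {c : List ℕ → List ℕ} (h : PT ∅ c) : PT ∅ fun p : List ℕ × ℕ × ℕ =>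
    tC b (c p.1) (p.2.1 / nC (c p.1)) (p.2.1 % nC (c p.1)) :=
  have a := pt_nC.comp (h.comp (PT.fst' : PT ∅ fun p : List ℕ × ℕ × ℕ => p.1))
  (pt_tC b).comp ((h.comp PT.fst').pair ((PT.div PT.snd'.fst a).pair (PT.mod PT.snd'.fst a)))

theorem pt_lt {c : List ℕ → List ℕ} (h : PT ∅ c) : PT ∅ fun p : List ℕ × ℕ × ℕ =>
    decide (p.2.1 / nC (c p.1) < p.2.1 % nC (c p.1)) :=
  have a := pt_nC.comp (h.comp (PT.fst' : PT ∅ fun p : List ℕ × ℕ × ℕ => p.1))
  PT.lt (PT.div PT.snd'.fst a) (PT.mod PT.snd'.fst a)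

theorem fpras_join : FPRAS (fun x : Σ n, (Fin n → Fin n → ℚ≥0) × Finset (Fin n) =>
    matrixCode x.2.1 ++ setCode x.2.2) fun x => joinSum x.2.1 x.2.2 := by
  have a : PT ∅ fun p : List ℕ × ℕ × ℕ => if p.2.2 = 0 then
      (if p.2.1 / nC p.1 < p.2.1 % nC p.1 then tC 1 p.1 (p.2.1 / nC p.1) (p.2.1 % nC p.1) else 1)
      else if p.2.2 = 1 ∧ p.2.1 / nC p.1 < p.2.1 % nC p.1 then
        tC 0 p.1 (p.2.1 / nC p.1) (p.2.1 % nC p.1) else 0 :=
    PT.ite (PT.eqNat PT.snd'.snd (PT.const 0)) (PT.ite (pt_lt PT.id) (pt_cell 1 PT.id) (PT.const 1))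
      (PT.ite (PT.decide_and (PT.eqNat PT.snd'.snd (PT.const 1)) (pt_lt PT.id)) (pt_cell 0 PT.id)
        (PT.const 0))
  refine master2 (m := fun c => nC c * nC c) (var := fun c => vr (nC c) 0)
    (T := fun c v => tC 2 c 0 v) (co := fun c k t => if t = 0 then
      (if k / nC c < k % nC c then tC 1 c (k / nC c) (k % nC c) else 1)
      else if t = 1 ∧ k / nC c < k % nC c then tC 0 c (k / nC c) (k % nC c) else 0)
    (Kd := fun c => 2 ^ nC c * ((List.range (nC c * nC c)).map fun k =>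
      if k / nC c < k % nC c then tC 1 c (k / nC c) (k % nC c) else 1).prod)
    pt_nC pbd_nC (PT.mul pt_nC pt_nC) (pbd_nC.mul pbd_nC) (pt_vr pt_nC (PT.const 0))
    ((pt_tC 2).comp (PT.fst'.pair ((PT.const 0).pair PT.snd'))) a
    (PT.mul (PT.pow (PT.const 2) pt_nC pbd_nC) (PT.prod (PT.map (f := fun c k =>
      if k / nC c < k % nC c then tC 1 c (k / nC c) (k % nC c) else 1)
      (PT.range (PT.mul pt_nC pt_nC) (pbd_nC.mul pbd_nC))
      (a.comp (PT.fst'.pair (PT.snd'.pair (PT.const 0)))))))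
    (fun x p hp => vr_lt hp le_rfl id) (fun x => ?_) fun x => ?_
  all_goals
    obtain ⟨n, A, T⟩ := x
    have e1 : nC (matrixCode A ++ setCode T) = n := nC_matrix A _
    have e2 : ∀ i j : Fin n, tC 1 (matrixCode A ++ setCode T) i j = (A i j).den := den_matrix A _
    dsimp only
    rw [e1, prod_list_range, prod_sq fun i j =>
      if i < j then tC 1 (matrixCode A ++ setCode T) i j else 1]
  · refine Nat.mul_pos (by positivity) (prod_pos fun p _ => ?_)
    rw [e2]
    split_ifs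
    · exact (A _ _).den_pos
    · exact one_pos
  have e3 : ∀ i j : Fin n, (tC 0 (matrixCode A ++ setCode T) i j : ℝ) = (A i j).den * A i j :=
    fun i j => by
      have : (tC 0 (matrixCode A ++ setCode T) i j : ℝ) / tC 1 (matrixCode A ++ setCode T) i j =
        A i j := quot_matrix A _ i j
      rw [← this, e2, mul_div_cancel₀ _ (Nat.cast_ne_zero.2 (A i j).den_ne_zero)]
  have e4 : ∀ v : Fin n, min (tC 2 (matrixCode A ++ setCode T) 0 v) 1 = if v ∈ T then 1 else 0 :=
    fun v => by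
      rw [show tC 2 (matrixCode A ++ setCode T) 0 v = _ from rest_matrix A _ v]
      simp only [setCode, List.getD_eq_getElem?_getD, List.getElem?_ofFn, v.2, dif_pos,
        Option.getD_some]
      split_ifs <;> rfl
  rw [Nat.cast_mul, mul_right_comm, Nat.cast_pow, Nat.cast_ofNat, join_eq, SP, sum_pow, sum_mul]
  refine sum_congr rfl fun W _ => ?_
  simp only [vr0, vr1, vr2, if_true, one_ne_zero, if_false, true_and, OfNat.ofNat_ne_zero,
    OfNat.ofNat_ne_one, false_and, Nat.cast_zero, zero_mul, add_zero]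
  rw [prod_sq fun i j => ((if i < j then tC 1 (matrixCode A ++ setCode T) i j else 1 : ℕ) : ℝ) +
      (if i < j then tC 0 (matrixCode A ++ setCode T) i j else 0 : ℕ) * sp (W.image Fin.val) i *
        sp (W.image Fin.val) j, ← Fin.prod_univ_eq_prod_range
      fun v => sp (W.image Fin.val) v ^ min (tC 2 (matrixCode A ++ setCode T) 0 v) 1,
    mul_assoc, prod_filter, Nat.cast_prod, ← prod_mul_distrib]
  simp only [sp_image, e4]
  congr 1
  refine prod_congr rfl fun p _ => ?_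
  simp only [Fin.val_fin_lt]
  split_ifs
  · rw [e3, e2]
    ring
  · simp

/-- the absolute value of the difference -/
def ab (x y : ℕ) : ℕ := (x - y) + (y - x)

theorem ab_cast (x y : ℕ) : (ab x y : ℝ) = |(x : ℝ) - y| := by
  unfold ab
  rcases le_total x y with h | h
  · rw [Nat.sub_eq_zero_of_le h, zero_add, Nat.cast_sub h, abs_sub_comm,
      abs_of_nonneg (sub_nonneg.2 (Nat.cast_le.2 h))]
  · rw [Nat.sub_eq_zero_of_le h, add_zero, Nat.cast_sub h,
      abs_of_nonneg (sub_nonneg.2 (Nat.cast_le.2 h))]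

theorem rat_eq (q : ℚ) : (q.num.toNat : ℝ) = (-q.num).toNat + q * q.den := by
  have h1 : ((q.num.toNat : ℤ) : ℝ) - (((-q.num).toNat : ℤ) : ℝ) = q.num := by
    rw [← Int.cast_sub, Int.toNat_sub_toNat_neg]
  have h2 : (q : ℝ) * q.den = q.num := by exact_mod_cast q.mul_den_eq_num
  simp only [Int.cast_natCast] at h1
  linarith

/-- the coefficients of an edge -/
def cf (g : ℕ → ℕ) (t : ℕ) : ℕ :=
  if t = 0 then ab (g 3 * g 2 * g 8 + g 6 * g 2 * g 5 + 2 * g 0 * g 5 * g 8)
    (g 4 * g 2 * g 8 + g 7 * g 2 * g 5 + 2 * g 1 * g 5 * g 8)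
  else if t = 1 then ab (g 3 * g 2 * g 8 + g 6 * g 2 * g 5 + 2 * g 1 * g 5 * g 8)
    (g 4 * g 2 * g 8 + g 7 * g 2 * g 5 + 2 * g 0 * g 5 * g 8)
  else ab (g 3 * g 2 * g 8 + g 7 * g 2 * g 5) (g 4 * g 2 * g 8 + g 6 * g 2 * g 5)

open Classical in
theorem spin_eq (G : SimpleGraph (Fin n)) (α β γ : ℚ) (e : ℝ) (he : e = 1 ∨ e = -1) :
    twoSpin G α β γ = ∑ W : Finset (Fin n), ∏ p : Fin n × Fin n with p.1 < p.2 ∧ G.Adj p.1 p.2,
      (((β : ℝ) + γ + 2 * α) / 4 + (β + γ - 2 * α) / 4 * sp W p.1 * sp W p.2 +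
        |(β : ℝ) - γ| / 4 * sp W p.1 * e + |(β : ℝ) - γ| / 4 * sp W p.2 * e) := by
  obtain ⟨b, hb⟩ : ∃ b : Bool, |(β : ℝ) - γ| * e = (β - γ) * if b then 1 else -1 := by
    rcases abs_choice ((β : ℝ) - γ) with h | h <;> rcases he with rfl | rfl
    · exact ⟨true, by simp [h]⟩
    · exact ⟨false, by simp [h]⟩
    · exact ⟨false, by simp [h]⟩
    · exact ⟨true, by simp [h]⟩
  rw [sum_spin (e := fun x => if x = b then 1 else -1) (b0 := b) (b1 := !b)
    (fun x h => by cases x <;> cases b <;> simp_all) (by simp) (by simp) fun s =>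
      ∏ p : Fin n × Fin n with p.1 < p.2 ∧ G.Adj p.1 p.2,
      (((β : ℝ) + γ + 2 * α) / 4 + (β + γ - 2 * α) / 4 * s p.1 * s p.2 +
        |(β : ℝ) - γ| / 4 * s p.1 * e + |(β : ℝ) - γ| / 4 * s p.2 * e)]
  refine sum_congr rfl fun σ _ => prod_congr rfl fun p _ => ?_
  dsimp only
  cases b <;> cases σ p.1 <;> cases σ p.2 <;> simp at hb ⊢ <;> linarith

theorem fpras_spin : FPRAS (fun x : {x : (Σ n, SimpleGraph (Fin n)) × ℚ × ℚ × ℚ //
      2 * |x.2.1| ≤ x.2.2.1 + x.2.2.2} =>
    ratCode x.1.2.1 ++ ratCode x.1.2.2.1 ++ ratCode x.1.2.2.2 ++ graphCode x.1.1.2)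
    fun x => twoSpin x.1.1.2 x.1.2.1 x.1.2.2.1 x.1.2.2.2 := by
  classical
  have d : PT ∅ fun c : List ℕ => c.drop 9 := PT.drop PT.id (PT.const 9)
  have a1 := pt_nC.comp d
  have a2 := pbd_nC.comp d
  have g : ∀ i, PT ∅ fun y : List ℕ => y.getD i 0 := fun i =>
    PT.getD PT.id (PT.const i) (PT.const 0)
  have g3 : ∀ i j k, PT ∅ fun y : List ℕ => y.getD i 0 * y.getD j 0 * y.getD k 0 := fun i j k =>
    PT.mul (PT.mul (g i) (g j)) (g k)
  have g4 : ∀ a i j k, PT ∅ fun y : List ℕ => a * y.getD i 0 * y.getD j 0 * y.getD k 0 :=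
    fun a i j k => PT.mul (PT.mul (PT.mul (PT.const a) (g i)) (g j)) (g k)
  have b : ∀ {x y : List ℕ → ℕ}, PT ∅ x → PT ∅ y → PT ∅ fun p : List ℕ × ℕ × ℕ =>
      ab (x p.1) (y p.1) := fun hx hy => (PT.add (PT.sub hx hy) (PT.sub hy hx)).comp PT.fst'
  have e0 : PT ∅ fun p : List ℕ × ℕ × ℕ => decide (p.2.2 = 0) := PT.eqNat PT.snd'.snd (PT.const 0)
  refine master2 (n := fun c => nC (c.drop 9) + 1) (m := fun c => nC (c.drop 9) * nC (c.drop 9))
    (var := fun c => vr (nC (c.drop 9)) (nC (c.drop 9))) (T := fun _ _ => 0)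
    (co := fun c k t => if k / nC (c.drop 9) < k % nC (c.drop 9) ∧
      tC 0 (c.drop 9) (k / nC (c.drop 9)) (k % nC (c.drop 9)) = 1 then cf (c.getD · 0) t
      else if t = 0 then 4 * c.getD 2 0 * c.getD 5 0 * c.getD 8 0 else 0)
    (Kd := fun c => 2 * (4 * c.getD 2 0 * c.getD 5 0 * c.getD 8 0) ^
      (nC (c.drop 9) * nC (c.drop 9)))
    (PT.add a1 (PT.const 1)) (a2.add (PBd.const 1)) (PT.mul a1 a1) (a2.mul a2) (pt_vr a1 a1)
    (PT.const 0) (PT.ite (PT.decide_and (pt_lt d) (PT.eqNat (pt_cell 0 d) (PT.const 1)))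
      (PT.ite e0 (b (PT.add (PT.add (g3 3 2 8) (g3 6 2 5)) (g4 2 0 5 8))
        (PT.add (PT.add (g3 4 2 8) (g3 7 2 5)) (g4 2 1 5 8)))
        (PT.ite (PT.eqNat PT.snd'.snd (PT.const 1))
          (b (PT.add (PT.add (g3 3 2 8) (g3 6 2 5)) (g4 2 1 5 8))
            (PT.add (PT.add (g3 4 2 8) (g3 7 2 5)) (g4 2 0 5 8)))
          (b (PT.add (g3 3 2 8) (g3 7 2 5)) (PT.add (g3 4 2 8) (g3 6 2 5)))))
      (PT.ite e0 ((g4 4 2 5 8).comp PT.fst') (PT.const 0)))
    (PT.mul (PT.const 2) (PT.pow (g4 4 2 5 8) (PT.mul a1 a1) (a2.mul a2)))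
    (fun x p hp => vr_lt hp (Nat.le_succ _) fun _ => Nat.lt_succ_self _) (fun x => ?_) fun x => ?_
  · have := x.1.2.1.den_pos
    have := x.1.2.2.1.den_pos
    have := x.1.2.2.2.den_pos
    simp only [ratCode, List.cons_append, List.getD_cons_succ, List.getD_cons_zero, List.nil_append]
    positivity
  obtain ⟨⟨⟨n, G⟩, α, β, γ⟩, h⟩ := x
  have h' : 2 * |(α : ℝ)| ≤ β + γ := by exact_mod_cast h
  have h1 := le_abs_self (α : ℝ)
  have h2 := neg_abs_le (α : ℝ)
  have e : (ratCode α ++ ratCode β ++ ratCode γ ++ graphCode G).drop 9 =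
      n :: (table (fun i j => if G.Adj i j then 1 else 0) ++ []) := by
    rw [List.append_nil]
    rfl
  dsimp only
  rw [e, nC_eq]
  set g : ℕ → ℕ := fun i => (ratCode α ++ ratCode β ++ ratCode γ ++ graphCode G).getD i 0
  set D : ℝ := α.den * β.den * γ.den with hD
  have D0 : 0 ≤ D := by positivity
  have c0 : (cf g 0 : ℝ) = 4 * D * ((β + γ + 2 * α) / 4) := by
    rw [← abs_of_nonneg (a := 4 * D * _) (mul_nonneg (by linarith) (by linarith)), cf, if_pos rfl,
      ab_cast]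
    simp only [g, ratCode, List.cons_append, List.getD_cons_succ, List.getD_cons_zero,
      List.nil_append, Nat.cast_add, Nat.cast_mul, rat_eq α, rat_eq β, rat_eq γ, Nat.cast_ofNat, hD]
    congr 1
    ring
  have c1 : (cf g 1 : ℝ) = 4 * D * ((β + γ - 2 * α) / 4) := by
    rw [← abs_of_nonneg (a := 4 * D * _) (mul_nonneg (by linarith) (by linarith)), cf,
      if_neg one_ne_zero, if_pos rfl, ab_cast]
    simp only [g, ratCode, List.cons_append, List.getD_cons_succ, List.getD_cons_zero,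
      List.nil_append, Nat.cast_add, Nat.cast_mul, rat_eq α, rat_eq β, rat_eq γ, Nat.cast_ofNat, hD]
    congr 1
    ring
  have c2 : ∀ t, 1 < t → (cf g t : ℝ) = 4 * D * (|(β : ℝ) - γ| / 4) := fun t ht => by
    rw [show 4 * D * (|(β : ℝ) - γ| / 4) = |D| * |(β : ℝ) - γ| by rw [abs_of_nonneg D0]; ring,
      ← abs_mul, cf, if_neg (by omega), if_neg (by omega), ab_cast]
    simp only [g, ratCode, List.cons_append, List.getD_cons_succ, List.getD_cons_zero,
      List.nil_append, Nat.cast_add, Nat.cast_mul, rat_eq β, rat_eq γ, hD]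
    congr 1
    ring
  have c3 : ((4 * g 2 * g 5 * g 8 : ℕ) : ℝ) = 4 * D := by
    simp only [g, ratCode, List.cons_append, List.getD_cons_succ, List.getD_cons_zero,
      List.nil_append, Nat.cast_mul, Nat.cast_ofNat, hD]
    ring
  have key : ∀ (s : ℕ → ℝ) (W : Finset (Fin n)), (∀ v : Fin n, s v = sp W v) →
      ∏ k ∈ range (n * n), (((if k / n < k % n ∧ tC 0 (n :: (table (fun i j =>
        if G.Adj i j then 1 else 0) ++ [])) (k / n) (k % n) = 1 then cf g 0 else
          4 * g 2 * g 5 * g 8 : ℕ) : ℝ) + (if k / n < k % n ∧ tC 0 (n :: (table (fun i j =>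
        if G.Adj i j then 1 else 0) ++ [])) (k / n) (k % n) = 1 then cf g 1 else 0 : ℕ) *
          s (k / n) * s (k % n) + (if k / n < k % n ∧ tC 0 (n :: (table (fun i j =>
        if G.Adj i j then 1 else 0) ++ [])) (k / n) (k % n) = 1 then cf g 2 else 0 : ℕ) *
          s (k / n) * s n + (if k / n < k % n ∧ tC 0 (n :: (table (fun i j =>
        if G.Adj i j then 1 else 0) ++ [])) (k / n) (k % n) = 1 then cf g 3 else 0 : ℕ) *
          s (k % n) * s n) = (4 * D) ^ (n * n) *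
        ∏ p : Fin n × Fin n with p.1 < p.2 ∧ G.Adj p.1 p.2,
          (((β : ℝ) + γ + 2 * α) / 4 + (β + γ - 2 * α) / 4 * sp W p.1 * sp W p.2 +
          |(β : ℝ) - γ| / 4 * sp W p.1 * s n + |(β : ℝ) - γ| / 4 * sp W p.2 * s n) := by
    intro s W hs
    rw [prod_sq fun i j => (((if i < j ∧ tC 0 (n :: (table (fun i j =>
        if G.Adj i j then 1 else 0) ++ [])) i j = 1 then cf g 0 else
          4 * g 2 * g 5 * g 8 : ℕ) : ℝ) + (if i < j ∧ tC 0 (n :: (table (fun i j =>
        if G.Adj i j then 1 else 0) ++ [])) i j = 1 then cf g 1 else 0 : ℕ) *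
          s i * s j + (if i < j ∧ tC 0 (n :: (table (fun i j =>
        if G.Adj i j then 1 else 0) ++ [])) i j = 1 then cf g 2 else 0 : ℕ) *
          s i * s n + (if i < j ∧ tC 0 (n :: (table (fun i j =>
        if G.Adj i j then 1 else 0) ++ [])) i j = 1 then cf g 3 else 0 : ℕ) * s j * s n),
      prod_filter, show (4 * D) ^ (n * n) = ∏ _p : Fin n × Fin n, 4 * D by simp,
      ← prod_mul_distrib]
    refine prod_congr rfl fun p _ => ?_
    simp only [tC_zero, hs, Fin.val_fin_lt, ite_eq_left_iff, zero_ne_one, imp_false, not_not]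
    split_ifs
    · rw [c0, c1, c2 2 one_lt_two, c2 3 (by norm_num)]
      ring
    · rw [c3]
      simp
  rw [SP, range_add_one (n := n), sum_powerset_insert notMem_range_self, sum_pow, sum_pow]
  simp only [vr0, vr1, vr2, if_true, one_ne_zero, if_false, OfNat.ofNat_ne_zero, Nat.zero_min,
    pow_zero, prod_const_one, one_mul]
  have f1 : ∀ W : Finset (Fin n), sp (W.image Fin.val) n = 1 := fun W => if_neg fun h => by
    obtain ⟨a, -, h⟩ := mem_image.1 h
    exact a.2.ne h
  have f2 : ∀ (W : Finset (Fin n)) (v : Fin n), sp (insert n (W.image Fin.val)) v = sp W v :=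
    fun W v => (sp_image W v) ▸ if_congr (mem_insert.trans (or_iff_right v.2.ne)) rfl rfl
  rw [sum_congr rfl fun W _ => key _ W (sp_image W), sum_congr rfl fun W _ => key _ W (f2 W)]
  simp only [f1, show ∀ W : Finset ℕ, sp (insert n W) n = -1 from
    fun W => if_pos (mem_insert_self _ _)]
  rw [← mul_sum, ← mul_sum, ← spin_eq G α β γ 1 (Or.inl rfl), ← spin_eq G α β γ (-1) (Or.inr rfl),
    Nat.cast_mul, Nat.cast_pow]
  refine (congrArg (fun z : ℝ => ((2 : ℕ) : ℝ) * z ^ (n * n) * twoSpin G α β γ) c3).trans ?_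
  push_cast
  ring

theorem fpras_csp : FPRAS (fun x : Σ n, Finset (Fin n) × List (Constraint n) =>
    x.1 :: (setCode x.2.1 ++ cspCode x.2.2)) fun x => cspSum x.2.1 x.2.2 := by
  have a := pt_nC.comp (PT.fst' : PT ∅ fun p : List ℕ × ℕ => p.1)
  have key : ∀ (n : ℕ) (T : Finset (Fin n)) (L : List (Constraint n)),
      nC (n :: (setCode T ++ cspCode L)) = n ∧
      ((n :: (setCode T ++ cspCode L)).length - (n + 1)) / 7 = L.length ∧
      ∀ k (hk : k < L.length), ∀ j < 7, (n :: (setCode T ++ cspCode L)).getD (n + (k * 7 + j) + 1) 0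
        = [L[k].u1.1, L[k].u2.1, L[k].u3.1, L[k].f0, L[k].f12, L[k].f13, L[k].f23].getD j 0 := by
    intro n T L
    have h1 : (setCode T).length = n := List.length_ofFn
    have h2 : (cspCode L).length = 7 * L.length := by
      simp [cspCode, List.length_flatMap, mul_comm]
    refine ⟨min_eq_left ?_, ?_, fun k hk j hj => ?_⟩
    · simp only [List.length_cons, List.length_append, h1, List.getD_cons_zero]
      omega
    · simp only [List.length_cons, List.length_append, h1, h2]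
      omega
    · rw [List.getD_cons_succ, List.getD_append_right _ _ _ _ (by omega), h1, Nat.add_sub_cancel_left,
        cspCode, List.getD_eq_getElem?_getD, getElem?_flatMap_const (n := 7) (fun _ => rfl) _ _ hj,
        List.getElem?_eq_getElem hk, List.getD_eq_getElem?_getD]
      rfl
  refine master2 (m := fun c => (c.length - (nC c + 1)) / 7)
    (var := fun c p => c.getD (nC c + (p / 3 * 7 + p % 3) + 1) 0) (T := fun c v => c.getD (v + 1) 0)
    (co := fun c k t => c.getD (nC c + (k * 7 + (3 + t)) + 1) 0) (Kd := fun _ => 1) pt_nC pbd_nC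
    (PT.div (PT.sub (PT.length PT.id) (PT.add pt_nC (PT.const 1))) (PT.const 7))
    ((PBd.length (A := ∅) PT.id).mono fun c => by omega)
    (PT.getD PT.fst' (PT.add (PT.add a (PT.add (PT.mul (PT.div PT.snd' (PT.const 3)) (PT.const 7))
      (PT.mod PT.snd' (PT.const 3)))) (PT.const 1)) (PT.const 0))
    (PT.getD PT.fst' (PT.add PT.snd' (PT.const 1)) (PT.const 0))
    (PT.getD PT.fst' (PT.add (PT.add (pt_nC.comp PT.fst') (PT.add (PT.mul PT.snd'.fst (PT.const 7))
      (PT.add (PT.const 3) PT.snd'.snd))) (PT.const 1)) (PT.const 0)) (PT.const 1)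
    (fun x p hp => ?_) (fun _ => one_pos) fun x => ?_
  all_goals
    obtain ⟨n, T, L⟩ := x
    obtain ⟨h1, h2, h3⟩ := key n T L
  · dsimp only at hp ⊢
    rw [h1, h2] at hp
    rw [h1, h3 _ (by omega) _ (by omega)]
    obtain h | h | h : p % 3 = 0 ∨ p % 3 = 1 ∨ p % 3 = 2 := by omega
    all_goals simp [h]
  dsimp only
  rw [h1, h2, Nat.cast_one, one_mul, SP, sum_pow, cspSum, sum_congr rfl (g := fun W =>
    (∏ v ∈ T, sp W v) * (L.map fun C => (C.f0 + C.f12 * sp W C.u1 * sp W C.u2 +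
      C.f13 * sp W C.u1 * sp W C.u3 + C.f23 * sp W C.u2 * sp W C.u3 : ℝ)).prod) fun W _ => ?_,
    sum_spin (e := fun u : ℤˣ => ((u : ℤ) : ℝ)) (b0 := 1) (b1 := -1)
      (fun u h => (Int.units_eq_one_or u).resolve_right h) (by simp) (by simp) fun s =>
      (∏ v ∈ T, s v) * (L.map fun C => (C.f0 + C.f12 * s C.u1 * s C.u2 + C.f13 * s C.u1 * s C.u3 +
        C.f23 * s C.u2 * s C.u3 : ℝ)).prod]
  · refine sum_congr rfl fun σ _ => ?_
    rw [← Fin.prod_univ_fun_getElem, ← Fin.prod_univ_fun_getElem]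
    push_cast
    rfl
  congr 1
  · rw [← Fin.prod_univ_eq_prod_range fun v =>
      sp (W.image Fin.val) v ^ min ((n :: (setCode T ++ cspCode L)).getD (v + 1) 0) 1,
      ← prod_ite_mem_eq T]
    refine prod_congr rfl fun v _ => ?_
    rw [sp_image, List.getD_cons_succ, List.getD_append _ _ _ _ (by simp [setCode])]
    simp only [setCode, List.getD_eq_getElem?_getD, List.getElem?_ofFn, v.2, dif_pos,
      Option.getD_some]
    split_ifs <;> simp
  · rw [← Fin.prod_univ_fun_getElem, prod_range]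
    refine prod_congr rfl fun k _ => ?_
    have e0 : 3 * k.1 / 3 = k ∧ (3 * k.1 + 1) / 3 = k ∧ (3 * k.1 + 2) / 3 = k ∧ 3 * k.1 % 3 = 0 ∧
      (3 * k.1 + 1) % 3 = 1 ∧ (3 * k.1 + 2) % 3 = 2 := by omega
    simp only [e0, h3 k k.2, Nat.reduceAdd, Nat.reduceLT, List.getD_cons_succ, List.getD_cons_zero,
      sp_image, Nat.ofNat_pos, Nat.one_lt_ofNat]

end Vale.Agent.N308T
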