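import Vale.Agent.N308T.Hol

/-!
A gadget graph: chains of parity vertices for the spins and weighted triangles for the constraints.
-/

namespace Vale.Agent.N308T

open Finset Vale.Agent.N308

/-- the next vertex of a triangle -/
def nx (p : ℕ) : ℕ := 3 * (p / 3) + (p + 1) % 3

/-- first end of an edge -/
def src (i : Lb) : Lb :=
  if i.1 = 1 ∨ i.1 = 2 then (3, 0, i.2.2) else if i.1 = 5 then (1, i.2) else (0, i.2)

/-- second end of an edge -/
def tgt (var : ℕ → ℕ) (i : Lb) : Lb :=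
  if i.1 = 0 then (0, i.2.1, i.2.2 + 1) else if i.1 = 1 then (0, var i.2.2, i.2.2) else
    if i.1 = 2 then (3, 0, nx i.2.2) else if i.1 = 3 then (1, i.2) else (2, i.2)

/-- an edge -/
def ed (var : ℕ → ℕ) (i : Lb) : Sym2 Lb := s(src i, tgt var i)

/-- the edges of the chains -/
def IC (n P : ℕ) : Finset Lb := {0} ×ˢ range n ×ˢ range P

/-- the edges of one constraint -/
def JK (k : ℕ) : Finset Lb :=
  {(1, 0, 3 * k), (1, 0, 3 * k + 1), (1, 0, 3 * k + 2), (2, 0, 3 * k), (2, 0, 3 * k + 1),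
    (2, 0, 3 * k + 2)}

/-- the edges of one absorber -/
def JA (q : ℕ × ℕ) : Finset Lb := {(3, q), (4, q), (5, q)}

/-- the weights of the edges -/
def wI (wl wt : ℕ → ℕ) (i : Lb) : ℕ := if i.1 = 1 then wl i.2.2 else if i.1 = 2 then wt i.2.2 else 1

/-- the degrees -/
def gd (n P : ℕ) (par : ℕ → ℕ → ℕ) (x : Lb) : ℕ :=
  if x.1 = 3 then (if x.2.1 = 0 ∧ x.2.2 < P then 1 else 0) else
    if x.1 < 3 ∧ x.2.1 < n ∧ x.2.2 ≤ P then (if x.1 = 0 then 2 + par x.2.1 x.2.2 else 1) else 0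

theorem mem_IC {n P : ℕ} {i : Lb} : i ∈ IC n P ↔ i.1 = 0 ∧ i.2.1 < n ∧ i.2.2 < P := by
  simp only [IC, mem_product, mem_singleton, mem_range]

theorem mem_JK {k : ℕ} {i : Lb} : i ∈ JK k ↔ (i.1 = 1 ∨ i.1 = 2) ∧ i.2.1 = 0 ∧ i.2.2 / 3 = k := by
  simp only [JK, mem_insert, mem_singleton, Prod.ext_iff]
  omega

theorem mem_JA {q : ℕ × ℕ} {i : Lb} : i ∈ JA q ↔ 3 ≤ i.1 ∧ i.1 < 6 ∧ i.2 = q := by
  simp only [JA, mem_insert, mem_singleton, Prod.ext_iff]
  omega

theorem mem_IK {m : ℕ} {i : Lb} :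
    i ∈ (range m).biUnion JK ↔ (i.1 = 1 ∨ i.1 = 2) ∧ i.2.1 = 0 ∧ i.2.2 < 3 * m := by
  simp only [mem_biUnion, mem_JK, mem_range]
  exact ⟨fun ⟨k, h1, h2⟩ => by omega, fun h => ⟨i.2.2 / 3, by omega, by omega⟩⟩

theorem mem_IA {n P : ℕ} {i : Lb} : i ∈ (range n ×ˢ range (P + 1)).biUnion JA ↔
    3 ≤ i.1 ∧ i.1 < 6 ∧ i.2.1 < n ∧ i.2.2 ≤ P := by
  simp only [mem_biUnion, mem_JA, mem_range, mem_product]
  exact ⟨fun ⟨k, h1, h2, h3, h4⟩ => by subst h4; omega,
    fun h => ⟨i.2, by omega, h.1, h.2.1, rfl⟩⟩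

theorem mem_ed {var : ℕ → ℕ} {i x : Lb} : x ∈ ed var i ↔ x = src i ∨ x = tgt var i := Sym2.mem_iff

theorem src_ne (var : ℕ → ℕ) (i : Lb) : src i ≠ tgt var i := by
  simp only [src, tgt, nx]
  split_ifs <;> simp only [ne_eq, Prod.ext_iff] <;> omega

theorem chi_ed (var : ℕ → ℕ) (i x : Lb) :
    chi (ed var i) x = (if x = src i then 1 else 0) + if x = tgt var i then 1 else 0 :=
  chi_ne (src_ne var i) x

theorem chi_zero {var : ℕ → ℕ} {i x : Lb} (h : x ∉ ed var i) : chi (ed var i) x = 0 := if_neg h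

theorem dz {var : ℕ → ℕ} {M : Finset Lb} {x : Lb} (h : ∀ i ∈ M, x ∉ ed var i) :
    (∑ i ∈ M, chi (ed var i)) x = 0 := by
  rw [Finset.sum_apply]
  exact sum_eq_zero fun i hi => chi_zero (h i hi)

theorem prod_par {β : Type} [DecidableEq β] (S : Finset β) (k : β → ℤ) :
    ∏ q ∈ S, (1 + (-1 : ℝ) ^ k q) = ∑ U ∈ S.powerset, ∏ q ∈ S, sp U q ^ k q := by
  rw [prod_one_add]
  refine sum_congr rfl fun U hU => ?_
  rw [← prod_subset (mem_powerset.1 hU) fun q _ h => by rw [sp, if_neg h, one_zpow]]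
  exact prod_congr rfl fun q hq => by rw [sp, if_pos hq]

theorem sp_ne {β : Type} [DecidableEq β] (V : Finset β) (v : β) : sp V v ≠ 0 := by
  unfold sp
  split_ifs <;> norm_num

/-- the spin of a label -/
noncomputable def spL (U : Finset (ℕ × ℕ)) (x : Lb) : ℝ := if x.1 = 0 then sp U x.2 else 1

theorem char_ed {S U : Finset (ℕ × ℕ)} (hU : U ⊆ S) (var : ℕ → ℕ) (i : Lb) :
    ∏ q ∈ S, sp U q ^ chi (ed var i) (0, q) = spL U (src i) * spL U (tgt var i) := by
  have h : ∀ a : Lb, ∏ q ∈ S, sp U q ^ (if (0, q) = a then (1 : ℤ) else 0) = spL U a := by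
    rintro ⟨j, p⟩
    unfold spL
    split_ifs with h
    · obtain rfl : j = 0 := h
      rw [prod_eq_single p (fun q _ h => by simp [h]) fun h => by
        rw [sp, if_neg fun h' => h (hU h'), one_zpow]]
      simp
    · exact prod_eq_one fun q _ => by
        rw [if_neg fun h' => h (congrArg Prod.fst h').symm, zpow_zero]
  simp only [chi_ed, zpow_add₀ (sp_ne _ _), prod_mul_distrib, h]

theorem absorber (var : ℕ → ℕ) {w : Lb → ℝ} {q : ℕ × ℕ} (hw : ∀ i ∈ JA q, w i = 1) {a : ℤ} {r : ℕ}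
    (h0 : 0 ≤ a) (h3 : a ≤ 3) (hr : r ≤ 1) :
    H (fun i => chi (ed var i)) w (JA q) (fun d => if a + d (0, q) = (2 + r : ℕ) ∧ d (1, q) = 1 ∧
      d (2, q) = 1 then 1 else 0) = (1 + (-1 : ℝ) ^ (a + r)) / 2 := by
  rw [H_congr_w hw, JA, H_insert (by simp), H_insert (by simp), H_insert (by simp), H_single,
    H_single, H_single, H_single]
  simp only [Pi.add_apply, chi_ed, src, tgt]
  obtain rfl | rfl : r = 0 ∨ r = 1 := by omega
  all_goals
    obtain rfl | rfl | rfl | rfl : a = 0 ∨ a = 1 ∨ a = 2 ∨ a = 3 := by omega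
    all_goals norm_num

theorem box (var : ℕ → ℕ) (w : Lb → ℝ) (k : ℕ) :
    H (fun i => chi (ed var i)) w (JK k) (fun d => if d (3, 0, 3 * k) = 1 ∧ d (3, 0, 3 * k + 1) = 1 ∧
      d (3, 0, 3 * k + 2) = 1 then 1 else 0) =
      w (1, 0, 3 * k) * w (1, 0, 3 * k + 1) * w (1, 0, 3 * k + 2) +
        w (2, 0, 3 * k) * w (1, 0, 3 * k + 2) + w (2, 0, 3 * k + 1) * w (1, 0, 3 * k) +
        w (2, 0, 3 * k + 2) * w (1, 0, 3 * k + 1) := by
  have e0 : nx (3 * k) = 3 * k + 1 := by unfold nx; omega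
  have e1 : nx (3 * k + 1) = 3 * k + 2 := by unfold nx; omega
  have e2 : nx (3 * k + 2) = 3 * k := by unfold nx; omega
  rw [JK]
  simp only [H_insert, H_single, mem_insert, mem_singleton, Prod.mk.injEq, Pi.add_apply, chi_ed,
    src, tgt, e0, e1, e2, Pi.zero_apply, OfNat.one_ne_ofNat, false_and, or_self, or_false,
    true_and, Nat.left_eq_add, one_ne_zero, OfNat.ofNat_ne_zero, not_false_eq_true,
    Nat.add_left_cancel_iff]
  norm_num
  ring

theorem deg_le (var : ℕ → ℕ) {n m : ℕ} {M : Finset Lb}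
    (hM : M ⊆ IC n (3 * m) ∪ (range m).biUnion JK) (q : ℕ × ℕ) :
    (∑ i ∈ M, chi (ed var i)) (0, q) ≤ 3 := by
  rw [Finset.sum_apply]
  simp only [chi, sum_boole]
  have : M.filter (fun i => (0, q) ∈ ed var i) ⊆ {(0, q), (0, q.1, q.2 - 1), (1, 0, q.2)} := by
    intro i hi
    obtain ⟨h1, h2⟩ := mem_filter.1 hi
    have h3 := hM h1
    simp only [mem_union, mem_IC, mem_IK, mem_ed, src, tgt] at h2 h3
    simp only [mem_insert, mem_singleton, Prod.ext_iff]
    split_ifs at h2 <;> simp only [Prod.ext_iff] at h2 <;> omega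
  exact_mod_cast (card_le_card this).trans card_le_three

open Classical in
theorem stepA {var : ℕ → ℕ} {n m : ℕ} {par : ℕ → ℕ → ℕ} {w : Lb → ℝ}
    (hvar : ∀ p < 3 * m, var p < n) (hpar : ∀ v p, par v p ≤ 1) (hw : ∀ i, 3 ≤ i.1 → w i = 1) :
    H (fun i => chi (ed var i)) w ((IC n (3 * m) ∪ (range m).biUnion JK) ∪
      (range n ×ˢ range (3 * m + 1)).biUnion JA)
      (fun d => if d = fun x => (gd n (3 * m) par x : ℤ) then 1 else 0) =
    H (fun i => chi (ed var i)) w (IC n (3 * m) ∪ (range m).biUnion JK) fun d =>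
      (∏ q ∈ range n ×ˢ range (3 * m + 1), (1 + (-1 : ℝ) ^ (d (0, q) + par q.1 q.2)) / 2) *
        ∏ k ∈ range m, if d (3, 0, 3 * k) = 1 ∧ d (3, 0, 3 * k + 1) = 1 ∧ d (3, 0, 3 * k + 2) = 1
          then 1 else 0 := by
  rw [H_union (disjoint_left.2 fun i h1 h2 => by
    simp only [mem_union, mem_IC, mem_IK, mem_IA] at h1 h2; omega)]
  refine H_congr fun M hM => ?_
  have h1 : ∀ x : Lb, (x.1 = 0 → n ≤ x.2.1 ∨ 3 * m < x.2.2) →
      (x.1 = 3 → x.2.1 ≠ 0 ∨ 3 * m ≤ x.2.2) → (∑ i ∈ M, chi (ed var i)) x = 0 := by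
    intro x a b
    refine dz fun i hi h2 => ?_
    have h3 := hM hi
    have h4 := hvar i.2.2
    simp only [mem_union, mem_IC, mem_IK, mem_ed, src, tgt, nx] at h2 h3
    split_ifs at h2 <;> simp only [Prod.ext_iff] at h2 <;> omega
  have h2 := deg_le var hM
  have h3 : ∀ x, 0 ≤ (∑ i ∈ M, chi (ed var i)) x := fun x => by
    rw [Finset.sum_apply]
    exact sum_nonneg fun i _ => chi_nonneg _ _
  generalize ∑ i ∈ M, chi (ed var i) = d at h1 h2 h3
  rw [← prod_congr rfl fun q hq => absorber var (q := q) (fun i hi => hw i (mem_JA.1 hi).1)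
    (h3 (0, q)) (h2 q) (hpar q.1 q.2), ← H_prod, mul_comm (H _ _ _ _), ← H_mul]
  · refine H_congr fun M' hM' => ?_
    have h4 : ∀ x : Lb, (x.1 < 3 → n ≤ x.2.1 ∨ 3 * m < x.2.2) →
        (∑ i ∈ M', chi (ed var i)) x = 0 := by
      intro x a
      refine dz fun i hi h2 => ?_
      have h3 := hM' hi
      simp only [mem_IA, mem_ed, src, tgt] at h2 h3
      split_ifs at h2 <;> simp only [Prod.ext_iff] at h2 <;> omega
    generalize ∑ i ∈ M', chi (ed var i) = d' at h4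
    rw [prod_boole, prod_boole, ite_zero_mul_ite_zero, one_mul]
    refine if_congr ⟨fun h => ⟨fun k hk => ?_, fun q hq => ?_⟩, fun h => funext fun x => ?_⟩ rfl rfl
    · have a : ∀ p < 3 * m, d (3, 0, p) = 1 := fun p hp => by
        simpa [h4, gd, hp] using congrFun h (3, 0, p)
      have := mem_range.1 hk
      exact ⟨a _ (by omega), a _ (by omega), a _ (by omega)⟩
    · simp only [mem_product, mem_range, Nat.lt_succ_iff] at hq
      exact ⟨by simpa [gd, hq] using congrFun h (0, q), by simpa [gd, hq, h1] using congrFun h (1, q),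
        by simpa [gd, hq, h1] using congrFun h (2, q)⟩
    · obtain ⟨j, v, p⟩ := x
      rw [Pi.add_apply]
      simp only [gd]
      split_ifs with a b c e
      · obtain ⟨rfl, rfl⟩ : j = 3 ∧ v = 0 := ⟨a, b.1⟩
        have b1 := h.1 (p / 3) (mem_range.2 (by omega))
        rw [h4 _ (by simp), add_zero]
        obtain b2 | b2 | b2 : p = 3 * (p / 3) ∨ p = 3 * (p / 3) + 1 ∨ p = 3 * (p / 3) + 2 := by omega
        · rw [b2]; exact b1.1
        · rw [b2]; exact b1.2.1
        · rw [b2]; exact b1.2.2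
      · rw [h1 _ (by simp only; omega) (by simp only; omega), h4 _ (by simp only; omega)]
        rfl
      · subst e
        exact (h.2 (v, p) (by simp; omega)).1
      · have b1 := h.2 (v, p) (by simp; omega)
        rw [h1 _ (by simp only; omega) (by simp only; omega), zero_add]
        obtain rfl | rfl : j = 1 ∨ j = 2 := by omega
        · exact b1.2.1
        · exact b1.2.2
      · rw [h1 _ (by simp only; omega) (by simp only; omega), h4 _ (by simp only; omega)]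
        rfl
  · intro q _ q' _ h
    exact disjoint_left.2 fun i a b => h ((mem_JA.1 a).2.2.symm.trans (mem_JA.1 b).2.2)
  · intro q _ q' _ h i hi d'
    have a : ∀ j, chi (ed var i) (j, q) = 0 := fun j => chi_zero fun h2 => by
      obtain ⟨b1, b2, rfl⟩ := mem_JA.1 hi
      simp only [mem_ed, src, tgt] at h2
      split_ifs at h2 <;> simp only [Prod.mk.injEq, h, and_false, or_self] at h2 <;> omega
    simp only [Pi.add_apply, a, zero_add]

/-- the signature of a triangle -/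
noncomputable def bx (w : Lb → ℝ) (s : ℕ → ℝ) (k : ℕ) : ℝ :=
  w (1, 0, 3 * k) * w (1, 0, 3 * k + 1) * w (1, 0, 3 * k + 2) * (s (3 * k) * s (3 * k + 1) *
    s (3 * k + 2)) + w (2, 0, 3 * k) * w (1, 0, 3 * k + 2) * s (3 * k + 2) +
    w (2, 0, 3 * k + 1) * w (1, 0, 3 * k) * s (3 * k) +
    w (2, 0, 3 * k + 2) * w (1, 0, 3 * k + 1) * s (3 * k + 1)

theorem stepB {var : ℕ → ℕ} {n m : ℕ} {w : Lb → ℝ} (hw : ∀ i, i.1 = 0 → w i = 1)
    {U : Finset (ℕ × ℕ)} (hU : U ⊆ range n ×ˢ range (3 * m + 1)) :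
    H (fun i => chi (ed var i)) w (IC n (3 * m) ∪ (range m).biUnion JK) (fun d =>
      (∏ q ∈ range n ×ˢ range (3 * m + 1), sp U q ^ d (0, q)) *
        ∏ k ∈ range m, if d (3, 0, 3 * k) = 1 ∧ d (3, 0, 3 * k + 1) = 1 ∧ d (3, 0, 3 * k + 2) = 1
          then 1 else 0) =
      (∏ q ∈ range n ×ˢ range (3 * m), (1 + sp U q * sp U (q.1, q.2 + 1))) *
        ∏ k ∈ range m, bx w (fun p => sp U (var p, p)) k := by
  rw [H_char (fun d => ∏ q ∈ range n ×ˢ range (3 * m + 1), sp U q ^ d (0, q)) (by simp)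
    fun d d' => by simp only [Pi.add_apply, zpow_add₀ (sp_ne _ _), prod_mul_distrib],
    H_union (disjoint_left.2 fun i h1 h2 => by simp only [mem_IC, mem_IK] at h1 h2; omega)]
  simp only [char_ed hU]
  rw [H_congr (Λ' := fun _ => ∏ k ∈ range m, bx w (fun p => sp U (var p, p)) k) fun M hM => ?_,
    H_const, mul_comm, IC, prod_product, prod_singleton]
  · congr 1
    exact prod_congr rfl fun q _ => by simp [hw, spL, src, tgt]
  have h1 : ∀ q, (∑ i ∈ M, chi (ed var i)) (3, q) = 0 := fun q => dz fun i hi h2 => by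
    have h3 := mem_IC.1 (hM hi)
    simp [mem_ed, src, tgt, h3.1] at h2
  simp only [Pi.add_apply, h1, zero_add]
  rw [H_prod]
  · refine prod_congr rfl fun k _ => ?_
    rw [box]
    simp [bx, spL, src, tgt]
    ring
  · intro k _ k' _ h
    exact disjoint_left.2 fun i a b => h ((mem_JK.1 a).2.2.symm.trans (mem_JK.1 b).2.2)
  · intro k _ k' _ h i hi d'
    have a : ∀ p, p / 3 = k → chi (ed var i) (3, 0, p) = 0 := fun p hp => chi_zero fun h2 => by
      have h3 := mem_JK.1 hi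
      simp only [mem_ed, src, tgt, nx] at h2
      split_ifs at h2 <;> simp only [Prod.ext_iff] at h2 <;> omega
    simp only [Pi.add_apply, a (3 * k) (by omega), a (3 * k + 1) (by omega),
      a (3 * k + 2) (by omega), zero_add]

open Classical in
theorem gadget {var : ℕ → ℕ} {n m : ℕ} {par : ℕ → ℕ → ℕ} {w : Lb → ℝ}
    (hvar : ∀ p < 3 * m, var p < n) (hpar : ∀ v p, par v p ≤ 1)
    (hw : ∀ i, i.1 = 0 ∨ 3 ≤ i.1 → w i = 1) :
    2 ^ n * H (fun i => chi (ed var i)) w ((IC n (3 * m) ∪ (range m).biUnion JK) ∪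
      (range n ×ˢ range (3 * m + 1)).biUnion JA)
      (fun d => if d = fun x => (gd n (3 * m) par x : ℤ) then 1 else 0) =
    ∑ V ∈ (range n).powerset, (∏ q ∈ range n ×ˢ range (3 * m + 1), sp V q.1 ^ par q.1 q.2) *
      ∏ k ∈ range m, bx w (fun p => sp V (var p)) k := by
  rw [stepA hvar hpar fun i hi => hw i (Or.inr hi)]
  simp only [prod_par, zpow_add₀ (sp_ne _ _), prod_mul_distrib, sum_mul, div_eq_inv_mul,
    mul_comm _ (∏ q ∈ range n ×ˢ range (3 * m + 1), sp _ q ^ (par _ _ : ℤ)),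
    mul_assoc]
  rw [H_mul, H_sum, sum_congr rfl fun U hU => by
    rw [H_mul, stepB (fun i hi => hw i (Or.inl hi)) (mem_powerset.1 hU), mul_left_comm], contract,
    prod_const, card_product, card_range, card_range, ← mul_assoc, ← mul_assoc, mul_add, mul_one,
    pow_add]
  rw [inv_pow, inv_pow, show (2 : ℝ) ^ n * ((2 ^ (n * (3 * m)))⁻¹ * (2 ^ n)⁻¹) *
    2 ^ (n * (3 * m)) = 1 by field_simp, one_mul]
  have h : ∀ (V : Finset ℕ) v p, p ≤ 3 * m → sp (V ×ˢ range (3 * m + 1)) (v, p) = sp V v :=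
    fun V v p hp => if_congr (by simp [hp]) rfl rfl
  refine sum_congr rfl fun V _ => congrArg₂ _ (prod_congr rfl fun q hq => ?_)
    (prod_congr rfl fun k hk => ?_)
  · rw [zpow_natCast, h V q.1 q.2 (Nat.lt_succ_iff.1 (mem_range.1 (mem_product.1 hq).2))]
  · have := mem_range.1 hk
    simp only [bx]
    rw [h, h, h] <;> omega

end Vale.Agent.N308T
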