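import Vale.Agent.N308.Gad

/-!
Weighted sums over sets of edges with a function of the degrees; products, characters.
-/

namespace Vale.Agent.N308T

open Finset Vale.Agent.N308

section Hol

variable {ι α : Type} [DecidableEq ι] {c : ι → α → ℤ} {w : ι → ℝ} {I J : Finset ι}
  {Λ Λ' : (α → ℤ) → ℝ}

/-- The sum over the subsets `M` of `I` of `Λ` (degrees of `M`) times the weight of `M`. -/
noncomputable def H (c : ι → α → ℤ) (w : ι → ℝ) (I : Finset ι) (Λ : (α → ℤ) → ℝ) : ℝ :=
  ∑ M ∈ I.powerset, Λ (∑ i ∈ M, c i) * ∏ i ∈ M, w i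

omit [DecidableEq ι] in
theorem H_empty : H c w ∅ Λ = Λ 0 := by simp [H]

theorem H_insert {i : ι} (h : i ∉ I) :
    H c w (insert i I) Λ = H c w I Λ + w i * H c w I fun d => Λ (c i + d) := by
  unfold H
  rw [sum_powerset_insert h, mul_sum]
  congr 1
  refine sum_congr rfl fun M hM => ?_
  have h1 : i ∉ M := fun h' => h (mem_powerset.1 hM h')
  rw [sum_insert h1, prod_insert h1]
  ring

omit [DecidableEq ι] in
theorem H_single (i : ι) : H c w {i} Λ = Λ 0 + w i * Λ (c i) := by
  classical
  rw [← LawfulSingleton.insert_empty_eq, H_insert (notMem_empty _), H_empty, H_empty, add_zero]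

omit [DecidableEq ι] in
theorem H_congr (h : ∀ M ⊆ I, Λ (∑ i ∈ M, c i) = Λ' (∑ i ∈ M, c i)) : H c w I Λ = H c w I Λ' :=
  sum_congr rfl fun M hM => by rw [h M (mem_powerset.1 hM)]

omit [DecidableEq ι] in
theorem H_congr_w {w' : ι → ℝ} (h : ∀ i ∈ I, w i = w' i) : H c w I Λ = H c w' I Λ :=
  sum_congr rfl fun M hM => by rw [prod_congr rfl fun i hi => h i (mem_powerset.1 hM hi)]

omit [DecidableEq ι] in
theorem H_mul (a : ℝ) : H c w I (fun d => a * Λ d) = a * H c w I Λ := by
  simp only [H, mul_sum, mul_assoc]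

omit [DecidableEq ι] in
theorem H_add : H c w I (fun d => Λ d + Λ' d) = H c w I Λ + H c w I Λ' := by
  simp only [H, add_mul, sum_add_distrib]

omit [DecidableEq ι] in
theorem H_sum {β : Type} (s : Finset β) (Φ : β → (α → ℤ) → ℝ) :
    H c w I (fun d => ∑ b ∈ s, Φ b d) = ∑ b ∈ s, H c w I (Φ b) := by
  simp only [H, sum_mul]
  exact sum_comm

omit [DecidableEq ι] in
theorem H_const (a : ℝ) : H c w I (fun _ => a) = a * ∏ i ∈ I, (1 + w i) := by
  rw [prod_one_add, H, mul_sum]

theorem H_union (h : Disjoint I J) :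
    H c w (I ∪ J) Λ = H c w I fun d => H c w J fun d' => Λ (d + d') := by
  induction I using Finset.induction_on generalizing Λ with
  | empty => simp [H_empty]
  | insert i I hi ih =>
    rw [disjoint_insert_left] at h
    rw [insert_union, H_insert (by simp [hi, h.1]), H_insert hi, ih h.2, ih h.2]
    simp only [add_assoc]

omit [DecidableEq ι] in
theorem H_char (χ : (α → ℤ) → ℝ) (h0 : χ 0 = 1) (h : ∀ d d', χ (d + d') = χ d * χ d') :
    H c w I (fun d => χ d * Λ d) = H c (fun i => w i * χ (c i)) I Λ := by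
  classical
  have : ∀ M : Finset ι, χ (∑ i ∈ M, c i) = ∏ i ∈ M, χ (c i) := fun M => by
    induction M using Finset.induction_on with
    | empty => simpa using h0
    | insert i M hi ih => rw [sum_insert hi, prod_insert hi, h, ih]
  refine sum_congr rfl fun M _ => ?_
  dsimp only
  rw [this, prod_mul_distrib]
  ring

omit [DecidableEq ι] in
theorem inv_sum (h : ∀ i ∈ I, ∀ d, Λ (c i + d) = Λ d) {M : Finset ι} (hM : M ⊆ I) (d : α → ℤ) :
    Λ (∑ i ∈ M, c i + d) = Λ d := by
  classical
  induction M using Finset.induction_on with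
  | empty => simp
  | insert i M hi ih =>
    rw [sum_insert hi, add_assoc, h i (hM (mem_insert_self _ _)),
      ih fun j hj => hM (mem_insert_of_mem hj)]

theorem H_prod {κ : Type} [DecidableEq κ] (K : Finset κ) (J : κ → Finset ι)
    (Φ : κ → (α → ℤ) → ℝ) (hJ : ∀ k ∈ K, ∀ k' ∈ K, k ≠ k' → Disjoint (J k) (J k'))
    (h : ∀ k ∈ K, ∀ k' ∈ K, k ≠ k' → ∀ i ∈ J k', ∀ d, Φ k (c i + d) = Φ k d) :
    H c w (K.biUnion J) (fun d => ∏ k ∈ K, Φ k d) = ∏ k ∈ K, H c w (J k) (Φ k) := by
  induction K using Finset.induction_on with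
  | empty => simp [H_empty]
  | insert k K hk ih =>
    have hne : ∀ k' ∈ K, k ≠ k' := fun k' hk' e => hk (e ▸ hk')
    rw [biUnion_insert, H_union ((disjoint_biUnion_right _ _ _).2 fun k' hk' =>
      hJ k (mem_insert_self _ _) k' (mem_insert_of_mem hk') (hne k' hk')), prod_insert hk,
      ← ih (fun a ha b hb => hJ a (mem_insert_of_mem ha) b (mem_insert_of_mem hb))
        fun a ha b hb => h a (mem_insert_of_mem ha) b (mem_insert_of_mem hb), mul_comm, ← H_mul]
    refine H_congr fun M hM => ?_
    rw [mul_comm, ← H_mul]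
    refine H_congr fun M' hM' => ?_
    rw [prod_insert hk]
    congr 1
    · rw [add_comm]
      refine inv_sum (fun i hi => ?_) hM' _
      obtain ⟨k', hk', hi⟩ := mem_biUnion.1 hi
      exact h k (mem_insert_self _ _) k' (mem_insert_of_mem hk') (hne k' hk') i hi
    · exact prod_congr rfl fun k' hk' => inv_sum (h k' (mem_insert_of_mem hk') k
        (mem_insert_self _ _) (hne k' hk').symm) hM _

end Hol

theorem FE_eq_H {ι α : Type} [DecidableEq ι] [DecidableEq α] {I : Finset ι} {e : ι → Sym2 α}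
    (he : Set.InjOn e I) (w : Sym2 α → ℝ) (g : α → ℤ) [∀ d, Decidable (d = g)] :
    FE (I.image e) w g = H (fun i => chi (e i)) (fun i => w (e i)) I fun d =>
      if d = g then 1 else 0 := by
  classical
  rw [FE_def, powerset_image, sum_image fun M hM M' hM' h =>
    (Set.InjOn.image_eq_image_iff he (by simpa using hM) (by simpa using hM')).1
      (by simpa using congrArg (fun s : Finset (Sym2 α) => (s : Set (Sym2 α))) h) |>
        coe_injective]
  refine sum_congr rfl fun M hM => ?_
  have h1 : Set.InjOn e M := he.mono (mem_powerset.1 hM)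
  rw [dg, sum_image h1, prod_image h1]
  dsimp only
  split_ifs with h <;> simp

/-- The spin of `v` when the spins in `V` are `-1`. -/
noncomputable def sp {β : Type} [DecidableEq β] (V : Finset β) (v : β) : ℝ :=
  if v ∈ V then -1 else 1

theorem sp_sq {β : Type} [DecidableEq β] (V : Finset β) (v : β) : sp V v * sp V v = 1 := by
  unfold sp
  split_ifs <;> norm_num

theorem contract (n P : ℕ) (Ψ : Finset (ℕ × ℕ) → ℝ) :
    ∑ U ∈ (range n ×ˢ range (P + 1)).powerset,
      (∏ q ∈ range n ×ˢ range P, (1 + sp U q * sp U (q.1, q.2 + 1))) * Ψ U =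
      2 ^ (n * P) * ∑ V ∈ (range n).powerset, Ψ (V ×ˢ range (P + 1)) := by
  rw [mul_sum]
  symm
  refine sum_of_injOn (fun V => V ×ˢ range (P + 1)) (fun V _ V' _ h => ?_) (fun V hV => ?_)
    (fun U hU h => ?_) fun V _ => ?_
  · ext v
    have := congrArg (fun s : Finset (ℕ × ℕ) => (v, 0) ∈ s) h
    simpa using this
  · exact mem_powerset.2 (product_subset_product_left (mem_powerset.1 hV))
  · by_contra h1
    have h2 : ∀ v < n, ∀ p < P, ((v, p) ∈ U ↔ (v, p + 1) ∈ U) := by
      intro v hv p hp
      have h3 := prod_ne_zero_iff.1 (left_ne_zero_of_mul h1) (v, p) (by simp [hv, hp])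
      unfold sp at h3
      split_ifs at h3 with a b b
      · exact iff_of_true a b
      · norm_num at h3
      · norm_num at h3
      · exact iff_of_false a b
    have h3 : ∀ v < n, ∀ p ≤ P, ((v, p) ∈ U ↔ (v, 0) ∈ U) := by
      intro v hv p hp
      induction p with
      | zero => rfl
      | succ p ih => rw [← h2 v hv p hp, ih (by omega)]
    refine h ⟨(range n).filter fun v => (v, 0) ∈ U,
      mem_coe.2 (mem_powerset.2 (filter_subset _ _)), ?_⟩
    ext ⟨v, p⟩
    have h4 := fun h : (v, p) ∈ U => mem_product.1 (mem_powerset.1 hU h)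
    simp only [mem_product, mem_filter, mem_range] at h4 ⊢
    exact ⟨fun h => (h3 v h.1.1 p (by omega)).2 h.1.2, fun h =>
      ⟨⟨(h4 h).1, (h3 v (h4 h).1 p (by have := (h4 h).2; omega)).1 h⟩, (h4 h).2⟩⟩
  · congr 1
    rw [prod_congr rfl (g := fun _ => 2) fun q hq => ?_, prod_const, card_product, card_range,
      card_range]
    have h1 := mem_range.1 (mem_product.1 hq).2
    have h2 : sp (V ×ˢ range (P + 1)) (q.1, q.2 + 1) = sp (V ×ˢ range (P + 1)) q := by
      unfold sp
      refine if_congr ?_ rfl rfl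
      simp only [mem_product, mem_range]
      exact and_congr_right fun _ => by omega
    rw [h2, sp_sq]
    norm_num

end Vale.Agent.N308T
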