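import Vale.Agent.N308T.Defs
import Vale.Agent.N308.Link
import Vale.Agent.Lib.PolyTime.TypedTM2

/-!
The approximation scheme for weighted graphs with prescribed degrees, for deterministic machines
which read a random number.
-/

namespace Vale.Agent.N308T

open Finset Vale.Agent.Lib.PTM Vale.Agent.Lib.PolyTime Vale.Agent.P308
open Vale.Agent.N308 hiding FPRAS word word_eq fpras_of_graph master graphCode matrixCode

theorem pr_eq (x y : List Bool) : pr x y = (x.flatMap fun b => [true, b]) ++ false :: y := by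
  induction x with
  | nil => rfl
  | cons b x ih => rw [pr, ih]; rfl

theorem word_eq : word = (enc : List ℕ → List Bool) := by
  funext l
  induction l with
  | nil => rfl
  | cons a l ih => rw [enc_cons, pr_eq, ← ih, enc_nat]; simp [word]

theorem val_snoc (ρ : List Bool) : val (ρ ++ [true]) = val ρ + 2 ^ ρ.length := by
  induction ρ with
  | nil => rfl
  | cons b ρ ih => rw [List.cons_append, val_cons, val_cons, ih, List.length_cons]; ring

theorem bits_snoc (ρ : List Bool) : (val (ρ ++ [true])).bits = ρ ++ [true] := by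
  rw [← nrm_eq_bits]
  simp [nrm]

theorem frq_le {t T : ℕ} (h : t ≤ T) (P : List Bool → Prop) {S : Set ℕ} (hS : S.Finite)
    (hP : ∀ r, 2 ^ T ≤ r → r < 2 ^ (T + 1) → (r.bits.take t).length = t → P (r.bits.take t) →
      r ∈ S) : frq t P * 2 ^ T ≤ S.ncard := by
  have h1 : frq t P = frq T fun ρ => P (ρ.take t) := by
    rw [frq_eq_Ex, frq_eq_Ex, Ex_take h fun ρ => Vale.Agent.Lib.PTM.ind (P ρ)]
  rw [h1, ← frq_eq, Nat.cast_le, ← Nat.card_coe_set_eq]
  have := hS.to_subtype
  refine Nat.card_le_card_of_injective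
    (fun ρ => ⟨val (List.ofFn ρ.1 ++ [true]), hP _ ?_ ?_ ?_ ?_⟩) fun ρ ρ' e => ?_
  · rw [val_snoc, List.length_ofFn]
    omega
  · have := val_lt (List.ofFn ρ.1)
    rw [val_snoc]
    rw [List.length_ofFn] at this ⊢
    omega
  · rw [bits_snoc]
    simp
    omega
  · rw [bits_snoc, List.take_append_of_le_length (by simpa using h)]
    exact ρ.2
  · have h2 := congrArg Nat.bits (congrArg Subtype.val e)
    rw [bits_snoc, bits_snoc] at h2
    exact Subtype.ext (List.ofFn_injective (List.append_cancel_right h2))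

theorem bound' {ε δ : ℚ} (h1 : 0 < ε) (h2 : ε < 1) (h3 : 0 < δ) (h4 : δ < 1 / 2) {L N k : ℕ}
    (hN : N ≤ (L + 2) ^ k) (C : ℕ) :
    (((N + (ε.den / ε.num.natAbs + 1) + Nat.size (δ.den / δ.num.natAbs) + 2) ^ C : ℕ) : ℝ) ≤
      (L + 1 / (ε : ℝ) + Real.logb 2 (1 / (δ : ℝ))) ^ ((k + 3) * C) := by
  have h4' : δ < 1 := h4.trans (by norm_num)
  have a1 := one_lt_inv h1 h2
  have a2 : 1 ≤ Real.logb 2 (1 / (δ : ℝ)) := by
    have b1 : (0 : ℝ) < δ := by exact_mod_cast h3
    have b2 : (δ : ℝ) < ((1 / 2 : ℚ) : ℝ) := by exact_mod_cast h4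
    rw [Real.le_logb_iff_rpow_le one_lt_two (by positivity), Real.rpow_one, le_div_iff₀ b1]
    push_cast at b2
    linarith
  have a7 : (0 : ℝ) ≤ L := Nat.cast_nonneg _
  have b1 : ((ε.den / ε.num.natAbs : ℕ) : ℝ) ≤ 1 / (ε : ℝ) := div_le' h1
  have b2 : (Nat.size (δ.den / δ.num.natAbs) : ℝ) ≤ Real.logb 2 (1 / (δ : ℝ)) + 1 :=
    (size_le (div_pos' h3 h4')).trans (add_le_add_left (Real.logb_le_logb_of_le one_lt_two
      (by exact_mod_cast div_pos' h3 h4') (div_le' h3)) 1)
  set μ := L + 1 / (ε : ℝ) + Real.logb 2 (1 / (δ : ℝ)) with hμ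
  have a8 : 2 ≤ μ := by linarith
  have b0 : (N : ℝ) ≤ μ ^ k := by
    refine le_trans (Nat.cast_le.2 hN) ?_
    push_cast
    exact pow_le_pow_left₀ (by positivity) (by linarith) k
  rw [Nat.cast_pow, pow_mul]
  refine pow_le_pow_left₀ (Nat.cast_nonneg _) ?_ _
  have d1 : (1 : ℝ) ≤ μ ^ k := one_le_pow₀ (by linarith)
  have d2 : μ ^ (k + 3) = μ ^ k * (μ * μ * μ) := by ring
  have d3 : μ + 5 ≤ μ * μ * μ := by nlinarith [mul_self_nonneg (μ - 2)]
  simp only [Nat.cast_add, Nat.cast_one, Nat.cast_ofNat]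
  nlinarith

/-- A quantity which is the number of perfect matchings of a graph computed in polynomial time,
times a fraction computed in polynomial time, has an FPRAS. -/
theorem fpras_of_graph {ι : Type} {code : ι → List ℕ} {Z : ι → ℝ} {N D K : List ℕ → ℕ}
    {adj : List ℕ → List Bool} (hN : PT ∅ N) (hb : PBd N) (hD : PT ∅ D) (hK : PT ∅ K)
    (hadj : PT ∅ adj) (H : ∀ x, 0 < D (code x) ∧ ∃ G : SimpleGraph (Fin (N (code x))),
      adjBits G = adj (code x) ∧ (numPM G : ℝ) * K (code x) = D (code x) * Z x) :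
    FPRAS code Z := by
  obtain ⟨C, hC, h⟩ := core_alg
  obtain ⟨k, hk⟩ := hb.exists_PB
  have g : ∀ i, PT ∅ fun y : List ℕ => y.getD i 0 := fun i =>
    PT.getD PT.id (PT.const i) (PT.const 0)
  have he : PT ∅ eQ := PT.add (PT.div (g 1) (g 0)) (PT.const 1)
  have hl : PT ∅ lQ := PT.natSize (PT.div (g 3) (g 2))
  have hd : PT ∅ fun y : List ℕ => y.drop 4 := PT.drop PT.id (PT.const 4)
  have ht : PT ∅ fun y : List ℕ => (N (y.drop 4) + eQ y + lQ y + 2) ^ C :=
    PT.powConst (PT.add (PT.add (PT.add (hN.comp hd) he) hl) (PT.const 2)) C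
  have hun : ∀ {g : List ℕ → ℕ}, PT ∅ g →
      PT ∅ fun s : List ℕ × List Bool => Un.mk (min (g s.1) s.2.length) := fun hg =>
    PT.mkUn (PT.min (hg.comp PT.fst') (PT.length PT.snd'))
      ((PBd.length (A := ∅) PT.snd').mono fun _ => min_le_right _ _)
  have hF : PT ∅ fun s : List ℕ × List Bool => [alg ((Un.mk (min (N (s.1.drop 4)) s.2.length),
      adj (s.1.drop 4), Un.mk (min (eQ s.1) s.2.length), Un.mk (min (lQ s.1) s.2.length)), s.2) *
      K (s.1.drop 4), D (s.1.drop 4)] :=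
    PT.cons (PT.mul (pt_alg.comp (((hun (hN.comp hd)).pair (((hadj.comp hd).comp PT.fst').pair
      ((hun he).pair (hun hl)))).pair PT.snd')) ((hK.comp hd).comp PT.fst'))
      (PT.cons ((hD.comp hd).comp PT.fst') PT.nil)
  have hF' := hF.comp ((PT.tail PT.id).pair (PT.take (PT.natBits (g 0)) (ht.comp (PT.tail PT.id))))
  obtain ⟨M, HM⟩ := hF'.exists_tm2
  unfold FPRAS
  rw [word_eq]
  refine ⟨_, M, HM, (k + 3) * C, fun x ε δ h1 h2 h3 h4 T hT => ?_⟩
  have b3 := Nat.cast_le.1 ((bound' h1 h2 h3 h4 (hk (code x)) C).trans hT)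
  obtain ⟨hD0, G, hG, hZ⟩ := H x
  refine le_trans (mul_le_mul_of_nonneg_right (le_trans ?_ (h _ G (eP (inp G ε δ))
    (lP (inp G ε δ)) (Nat.succ_pos _))) (by positivity)) (frq_le b3 _
      ((Set.finite_lt_nat (2 ^ (T + 1))).subset fun r hr => hr.2.1) fun r r1 r2 hρ h => ⟨r1, r2, ?_⟩)
  · have := lP_ok G (ε := ε) h3
    linarith
  · generalize hr : r.bits.take _ = ρ at hρ h
    have h7 : N (code x) + eP (inp G ε δ) + lP (inp G ε δ) + 2 ≤ ρ.length :=
      hρ ▸ Nat.le_self_pow hC.ne' _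
    have h8 := mul_le_mul_of_nonneg_left (eP_ok G (δ := δ) h1) (Nat.cast_nonneg (numPM G))
    have h9 : (0 : ℝ) < D (code x) := by exact_mod_cast hD0
    have h10 : (0 : ℝ) ≤ K (code x) := Nat.cast_nonneg _
    rw [mul_one_div] at h8
    rw [abs_le, hG] at h
    refine ⟨alg ((⟨min (N (code x)) ρ.length⟩, adj (code x), ⟨min (eP (inp G ε δ)) ρ.length⟩,
      ⟨min (lP (inp G ε δ)) ρ.length⟩), ρ) * K (code x), _, hD0, by rw [← hr]; rfl, ?_⟩
    rw [min_eq_left (by omega), min_eq_left (by omega), min_eq_left (by omega), le_div_iff₀ h9,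
      div_le_iff₀ h9, mul_assoc, mul_assoc, mul_comm (Z x), ← hZ, Nat.cast_mul, ← mul_assoc,
      ← mul_assoc]
    exact ⟨mul_le_mul_of_nonneg_right (by linarith [h.1]) h10,
      mul_le_mul_of_nonneg_right (by linarith [h.2]) h10⟩

/-- **Weighted graphs with prescribed degrees.** -/
theorem master {ι : Type} {code : ι → List ℕ} {Z : ι → ℝ} {n Kn Kd : List ℕ → ℕ}
    {num den : List ℕ → ℕ → ℕ → ℕ} {f : List ℕ → ℕ → ℕ} (hn : PT ∅ n) (hb : PBd n)
    (h1 : PT ∅ fun p : List ℕ × ℕ × ℕ => num p.1 p.2.1 p.2.2)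
    (h2 : PT ∅ fun p : List ℕ × ℕ × ℕ => den p.1 p.2.1 p.2.2)
    (h3 : PT ∅ fun p : List ℕ × ℕ => f p.1 p.2) (h4 : PT ∅ Kn) (h5 : PT ∅ Kd)
    (hf : ∀ c, ∀ v < n c, f c v ≤ n c)
    (hd : ∀ x, ∀ u < n (code x), ∀ v < n (code x), den (code x) u v ≠ 0)
    (hK : ∀ x, 0 < Kd (code x)) (hZ : ∀ x, Kd (code x) * Z x =
      Kn (code x) * FS (n (code x)) (num (code x)) (den (code x)) (f (code x))) :
    FPRAS code Z := by
  have r := PT.range hn hb
  have a1 : PT ∅ fun c => l1 (n c) (f c) := by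
    refine PT.filter (f := fun c => lv (f c)) (pt_prod (PT.const _) (pt_prod r r)) ?_
    have x2 : PT ∅ fun p : List ℕ × Lb => p.2.2.1 := PT.snd'.snd.fst
    have x3 : PT ∅ fun p : List ℕ × Lb => p.2.2.2 := PT.snd'.snd.snd
    exact PT.ite (PT.eqNat PT.snd'.fst (PT.const 0)) (PT.decide_not (PT.eqNat x2 x3))
      (PT.lt x3 (h3.comp (PT.fst'.pair x2)))
  have a2 := pt_w1 h1 h2
  have a3 := PT.sum (pt_tab (w := fun c => w1 (num c) (den c)) a1 a2)
  have a4 : PT ∅ fun c => l1 (n c) (f c) ×ˢ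
      List.range (2 * bitsL (l1 (n c) (f c)) (w1 (num c) (den c)) + 1) :=
    pt_prod a1 (PT.range (PT.add (PT.double (PT.natSize a3)) (PT.const 1))
      (((PBd.const 2).mul (a3.pbd.mono fun c => (esize_nat _).ge)).add (PBd.const 1)))
  have a5 := pt_w2 (w := fun c => w1 (num c) (den c)) a2
  have a6 : PT ∅ fun c => ((List.range (n c)).map fun v =>
      (min (f c v) (n c)).factorial * ((List.range (min v (n c))).map fun u => den c u v).prod).prod
      := by
    have b1 := hn.comp (PT.fst' : PT ∅ fun p : List ℕ × ℕ => p.1)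
    have b2 := hb.comp (PT.fst' : PT ∅ fun p : List ℕ × ℕ => p.1)
    refine PT.prod (PT.map (f := fun c v => (min (f c v) (n c)).factorial *
      ((List.range (min v (n c))).map fun u => den c u v).prod) r (PT.mul
      (PT.factorial (PT.min h3 b1) (b2.mono fun _ => min_le_right _ _)) (PT.prod
        (PT.map (f := fun (p : List ℕ × ℕ) u => den p.1 u p.2)
          (PT.range (PT.min PT.snd' b1) (b2.mono fun _ => min_le_right _ _))
          (h2.comp (PT.fst'.fst.pair (PT.snd'.pair PT.fst'.snd)))))))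
  refine fpras_of_graph (PT.length a4) (PBd.length a4) (PT.mul a6 h5) h4
    (pt_tab (w := fun c x y => decide (w2 (w1 (num c) (den c)) 0 x y +
      w2 (w1 (num c) (den c)) 0 y x = 1)) a4 (PT.eqNat (PT.add a5
        (a5.comp (PT.fst'.pair (PT.snd'.snd.pair PT.snd'.fst)))) (PT.const 1))) fun x => ?_
  have hd := hd x
  have hf := hf (code x)
  have hK := hK x
  rw [Nat.cast_mul, mul_assoc, hZ x]
  generalize n (code x) = n, num (code x) = num, den (code x) = den, f (code x) = f at hd hf ⊢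
  have e : ((List.range n).map fun v =>
      (min (f v) n).factorial * ((List.range (min v n)).map fun u => den u v).prod).prod =
      ∏ v ∈ range n, (f v).factorial * ∏ u ∈ range v, den u v := by
    rw [prod_list_range]
    refine prod_congr rfl fun v hv => ?_
    rw [mem_range] at hv
    rw [min_eq_left (hf v hv), min_eq_left hv.le, prod_list_range]
  have nd : (l1 n f).Nodup :=
    (List.nodup_range.product (List.nodup_range.product List.nodup_range)).filter _
  have e1 : (l1 n f).toFinset = (range 2 ×ˢ range n ×ˢ range n).filter fun x => lv f x := by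
    ext ⟨i, u, v⟩
    simp [l1]
  rw [e]
  refine ⟨Nat.mul_pos (prod_pos fun v hv => Nat.mul_pos (Nat.factorial_pos _)
    (prod_pos fun u hu => ?_)) hK, ?_⟩
  · rw [mem_range] at hu hv
    exact Nat.pos_of_ne_zero (hd u (by omega) v hv)
  obtain ⟨G, hG, hG'⟩ := exists_graph (nd.product (List.nodup_range
    (n := 2 * bitsL (l1 n f) (w1 num den) + 1))) (w2_le (w1 num den))
  refine ⟨G, hG, ?_⟩
  have e2 : (l1 n f ×ˢ List.range (2 * bitsL (l1 n f) (w1 num den) + 1)).toFinset =
      (l1 n f).toFinset ×ˢ range (2 * bitsL (l1 n f) (w1 num den) + 1) := by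
    ext ⟨a, b⟩
    simp
  rw [hG', e2, binary, e1, degrees hf hd]
  · ring
  · rintro ⟨i, u, v⟩ -
    simp only [w1]
    split_ifs <;> omega
  · intro a ha b hb
    refine lt_of_le_of_lt (List.single_le_sum (fun _ _ => Nat.zero_le _) _ ?_) (Nat.lt_size_self _)
    exact List.mem_flatMap.2 ⟨a, List.mem_toFinset.1 ha, List.mem_map.2
      ⟨b, List.mem_toFinset.1 hb, rfl⟩⟩

end Vale.Agent.N308T
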