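import Vale.Agent.N308T.Gad
import Vale.Agent.N308T.Model

/-!
Spin systems with ternary constraints as weighted graphs with prescribed degrees.
-/

namespace Vale.Agent.N308T

open Finset Vale.Agent.Lib.PolyTime
open Vale.Agent.N308 hiding FPRAS word word_eq fpras_of_graph master graphCode matrixCode

/-- the weights of the oriented edges between labels -/
def nb (var wl wt : ℕ → ℕ) (x y : Lb) : ℕ :=
  if x.1 = 3 then
    (if y.1 = 3 then (if y.2.2 = nx x.2.2 then wt x.2.2 else 0)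
    else if y.1 = 0 ∧ y.2.1 = var x.2.2 ∧ y.2.2 = x.2.2 then wl x.2.2 else 0)
  else if y.2.1 = x.2.1 ∧ ((x.1 = 0 ∧ y.1 = 0 ∧ y.2.2 = x.2.2 + 1) ∨
    (x.1 < y.1 ∧ y.1 < 3 ∧ y.2.2 = x.2.2)) then 1 else 0

/-- the label of a number -/
def dec (P i : ℕ) : Lb := (i % 4, i / 4 / (P + 1), i / 4 % (P + 1))

theorem dec_inj (P : ℕ) : Function.Injective (dec P) := fun i j h => by
  simp only [dec, Prod.mk.injEq] at h
  have h1 := Nat.div_add_mod (i / 4) (P + 1)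
  have h2 := Nat.div_add_mod (j / 4) (P + 1)
  rw [h.2.1, h.2.2] at h1
  omega

theorem mem_dec {n P : ℕ} {x : Lb} (h1 : x.1 < 4) (h2 : x.2.1 ≤ n) (h3 : x.2.2 ≤ P) :
    x ∈ (range (4 * ((P + 1) * (n + 1)))).image (dec P) := by
  obtain ⟨j, v, p⟩ := x
  dsimp only at h1 h2 h3
  refine mem_image.2 ⟨4 * ((P + 1) * v + p) + j, mem_range.2 ?_, ?_⟩
  · have := Nat.mul_le_mul_left (P + 1) h2
    rw [mul_add (P + 1) n]
    omega
  · have e : (4 * ((P + 1) * v + p) + j) / 4 = (P + 1) * v + p := by omega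
    rw [dec, e, show (4 * ((P + 1) * v + p) + j) % 4 = j by omega, Nat.mul_add_div (by omega),
      Nat.mul_add_mod, Nat.div_eq_of_lt (by omega), Nat.mod_eq_of_lt (show p < P + 1 by omega)]
    rfl

theorem gd_pos {n P : ℕ} {par : ℕ → ℕ → ℕ} {x : Lb} (h : gd n P par x ≠ 0) :
    (x.1 = 3 ∧ x.2.1 = 0 ∧ x.2.2 < P) ∨ (x.1 < 3 ∧ x.2.1 < n ∧ x.2.2 ≤ P) := by
  unfold gd at h
  split_ifs at h <;> omega

theorem ed_inj {var : ℕ → ℕ} {i j : Lb} (h1 : i.1 < 6) (h2 : i.1 = 1 ∨ i.1 = 2 → i.2.1 = 0)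
    (h3 : j.1 < 6) (h4 : j.1 = 1 ∨ j.1 = 2 → j.2.1 = 0) (h : ed var i = ed var j) : i = j := by
  obtain ⟨t, v, p⟩ := i
  obtain ⟨t', v', p'⟩ := j
  dsimp only at h1 h2 h3 h4
  obtain rfl | rfl | rfl | rfl | rfl | rfl : t = 0 ∨ t = 1 ∨ t = 2 ∨ t = 3 ∨ t = 4 ∨ t = 5 := by
    omega
  all_goals
    obtain rfl | rfl | rfl | rfl | rfl | rfl :
      t' = 0 ∨ t' = 1 ∨ t' = 2 ∨ t' = 3 ∨ t' = 4 ∨ t' = 5 := by omega
    all_goals
      simp only [ed, src, tgt, nx, Sym2.eq_iff, Prod.mk.injEq, Nat.reduceEqDiff, or_self, if_true,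
        if_false, or_true, true_and, false_and, and_false, or_false] at h ⊢
      try omega

open Classical in
theorem FS_eq_H {var : ℕ → ℕ} (wl wt : ℕ → ℕ) {n m : ℕ} (par : ℕ → ℕ → ℕ)
    (hvar : ∀ p < 3 * m, var p < n) :
    FS (4 * ((3 * m + 1) * (n + 1))) (fun i j => nb var wl wt (dec (3 * m) i) (dec (3 * m) j) +
      nb var wl wt (dec (3 * m) j) (dec (3 * m) i)) (fun _ _ => 1)
      (fun i => gd n (3 * m) par (dec (3 * m) i)) =
    H (fun i => chi (ed var i)) (fun i => wI wl wt i) ((IC n (3 * m) ∪ (range m).biUnion JK) ∪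
      (range n ×ˢ range (3 * m + 1)).biUnion JA)
      (fun d => if d = fun x => (gd n (3 * m) par x : ℤ) then 1 else 0) := by
  have e : (fun v => if v < 4 * ((3 * m + 1) * (n + 1)) then
      ((gd n (3 * m) par (dec (3 * m) v) : ℕ) : ℤ) else 0) =
      fun v => (gd n (3 * m) par (dec (3 * m) v) : ℤ) := by
    funext v
    split_ifs with h
    · rfl
    · by_contra h1
      have h2 := gd_pos (n := n) (P := 3 * m) (par := par) (x := dec (3 * m) v) (by omega)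
      have h3 : n + 1 ≤ v / 4 / (3 * m + 1) := by
        rw [Nat.le_div_iff_mul_le (by omega), mul_comm]
        omega
      simp only [dec] at h2
      omega
  have live : ∀ x, (0 : ℤ) < gd n (3 * m) par x → _ := fun x h =>
    gd_pos (n := n) (P := 3 * m) (par := par) (x := x) (by omega)
  set I := (IC n (3 * m) ∪ (range m).biUnion JK) ∪ (range n ×ˢ range (3 * m + 1)).biUnion JA
  have hI : ∀ i : Lb, i ∈ I ↔ (i.1 = 0 ∧ i.2.1 < n ∧ i.2.2 < 3 * m ∨
      (i.1 = 1 ∨ i.1 = 2) ∧ i.2.1 = 0 ∧ i.2.2 < 3 * m) ∨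
      3 ≤ i.1 ∧ i.1 < 6 ∧ i.2.1 < n ∧ i.2.2 ≤ 3 * m := fun i => by
    simp only [I, mem_union, mem_IC, mem_IK, mem_IA]
  have z : ∀ x y : Lb, (0 : ℤ) < gd n (3 * m) par x → (0 : ℤ) < gd n (3 * m) par y →
      s(x, y) ∉ I.image (ed var) → nb var wl wt x y = 0 := by
    rintro ⟨j, v, p⟩ ⟨j', v', p'⟩ h1 h2 h3
    have a := live _ h1
    have b := live _ h2
    dsimp only at a b
    by_contra h4
    refine h3 (mem_image.2 ?_)
    simp only [nb] at h4
    split_ifs at h4 with c1 c2 c3 c4 c5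
    · obtain ⟨rfl, rfl, rfl, rfl, rfl⟩ : j = 3 ∧ j' = 3 ∧ v = 0 ∧ v' = 0 ∧ p' = nx p := by omega
      exact ⟨(2, 0, p), (hI _).2 (by dsimp only; omega), rfl⟩
    · exact (h4 rfl).elim
    · obtain ⟨rfl, rfl, rfl, rfl, rfl⟩ : j = 3 ∧ j' = 0 ∧ v = 0 ∧ p = p' ∧ v' = var p := by omega
      exact ⟨(1, 0, p), (hI _).2 (by dsimp only; omega), rfl⟩
    · exact (h4 rfl).elim
    · obtain ⟨rfl, c6 | c6⟩ := c5
      · obtain ⟨rfl, rfl, rfl⟩ := c6
        exact ⟨(0, v', p), (hI _).2 (by dsimp only; omega), rfl⟩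
      · obtain ⟨c6, c7, rfl⟩ := c6
        obtain ⟨rfl, rfl⟩ | ⟨rfl, rfl⟩ | ⟨rfl, rfl⟩ :
          (j = 0 ∧ j' = 1) ∨ (j = 0 ∧ j' = 2) ∨ (j = 1 ∧ j' = 2) := by omega
        · exact ⟨(3, v', p'), (hI _).2 (by dsimp only; omega), rfl⟩
        · exact ⟨(4, v', p'), (hI _).2 (by dsimp only; omega), rfl⟩
        · exact ⟨(5, v', p'), (hI _).2 (by dsimp only; omega), rfl⟩
    · exact (h4 rfl).elim
  rw [FS, e, F_congr (w' := fun e => sw (fun x y => (nb var wl wt x y : ℝ)) (e.map (dec (3 * m)))),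
    ← F_map (dec_inj _) _ _ (g := fun x => (gd n (3 * m) par x : ℤ)), F,
    FE_subset (E' := I.image (ed var)), FE_eq_H]
  · refine H_congr_w fun i hi => ?_
    obtain ⟨t, v, p⟩ := i
    have h1 := (hI _).1 hi
    have h2 : nx (nx p) ≠ p := by unfold nx; omega
    dsimp only at h1
    obtain rfl | rfl | rfl | rfl | rfl | rfl : t = 0 ∨ t = 1 ∨ t = 2 ∨ t = 3 ∨ t = 4 ∨ t = 5 := by
      omega
    all_goals simp [ed, src, tgt, nb, wI, h2.symm, add_assoc]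
  · intro i hi j hj h
    have h1 := (hI _).1 hi
    have h2 := (hI _).1 hj
    exact ed_inj (by omega) (by omega) (by omega) (by omega) h
  · intro e he
    obtain ⟨i, hi, rfl⟩ := mem_image.1 he
    have h1 := (hI _).1 hi
    have h2 := hvar i.2.2
    refine mk_mem_sym2_iff.2 ⟨mem_dec ?_ ?_ ?_, mem_dec ?_ ?_ ?_⟩
    all_goals
      simp only [src, tgt, nx]
      split_ifs <;> simp only <;> omega
  · intro e
    induction e using Sym2.ind with
    | _ x y =>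
      intro _ h1 h2
      have a := h2 x (by simp)
      have b := h2 y (by simp)
      rw [sw_mk, z x y a b h1, z y x b a (by rwa [Sym2.eq_swap]), Nat.cast_zero, add_zero]
  · intro x hx
    by_contra h
    have h1 := gd_pos (n := n) (P := 3 * m) (par := par) (x := x) (by omega)
    obtain ⟨a, -, h2⟩ := mem_image.1 (mem_dec (x := x) (n := n) (P := 3 * m) (by omega) (by omega)
      (by omega))
    exact hx a h2
  · intro a _ b _ _ _
    simp only [sw_mk, Sym2.map_mk]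
    rcases lt_trichotomy a b with h | rfl | h
    · simp [h, h.not_gt]
    · have : nb var wl wt (dec (3 * m) a) (dec (3 * m) a) = 0 := by
        unfold nb nx
        split_ifs <;> omega
      simp [this]
    · simp [h, h.not_gt, add_comm]

/-- the first nonzero coefficient -/
def t0 (c : ℕ → ℕ) : ℕ := if c 0 ≠ 0 then 0 else if c 1 ≠ 0 then 1 else if c 2 ≠ 0 then 2 else 3

/-- the weights of the legs -/
def wl (co : ℕ → ℕ → ℕ) (p : ℕ) : ℕ := co (p / 3) (t0 (co (p / 3)))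

/-- the weights of the sides of the triangles -/
def wt (co : ℕ → ℕ → ℕ) (p : ℕ) : ℕ :=
  wl co p * co (p / 3) ((if p % 3 = 0 then 1 else 4 - p % 3) ^^^ t0 (co (p / 3)))

/-- the parity shift of a leg -/
def fl (co : ℕ → ℕ → ℕ) (p : ℕ) : ℕ :=
  if t0 (co (p / 3)) = 0 ∨ t0 (co (p / 3)) + p % 3 = 3 then 1 else 0

/-- the parities -/
def par (m : ℕ) (var : ℕ → ℕ) (co : ℕ → ℕ → ℕ) (T : ℕ → ℕ) (v p : ℕ) : ℕ :=
  if p = 3 * m then min (T v) 1 else if var p = v then fl co p else 0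

/-- the sum over the spins -/
noncomputable def SP (n m : ℕ) (var : ℕ → ℕ) (co : ℕ → ℕ → ℕ) (T : ℕ → ℕ) : ℝ :=
  ∑ V ∈ (range n).powerset, (∏ v ∈ range n, sp V v ^ min (T v) 1) * ∏ k ∈ range m,
    (co k 0 + co k 1 * sp V (var (3 * k)) * sp V (var (3 * k + 1)) +
      co k 2 * sp V (var (3 * k)) * sp V (var (3 * k + 2)) +
      co k 3 * sp V (var (3 * k + 1)) * sp V (var (3 * k + 2)))

theorem par_le (m : ℕ) (var : ℕ → ℕ) (co : ℕ → ℕ → ℕ) (T : ℕ → ℕ) (v p : ℕ) :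
    par m var co T v p ≤ 1 := by
  unfold par fl
  split_ifs <;> omega

theorem rot (co : ℕ → ℕ → ℕ) (s : ℕ → ℝ) (hs : ∀ p, s p = 1 ∨ s p = -1) (k : ℕ) :
    s (3 * k) ^ fl co (3 * k) * s (3 * k + 1) ^ fl co (3 * k + 1) *
      s (3 * k + 2) ^ fl co (3 * k + 2) * bx (fun i => wI (wl co) (wt co) i) s k =
    (max (wl co (3 * k)) 1 ^ 2 : ℕ) * (co k 0 + co k 1 * s (3 * k) * s (3 * k + 1) +
      co k 2 * s (3 * k) * s (3 * k + 2) + co k 3 * s (3 * k + 1) * s (3 * k + 2)) := by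
  have e0 : 3 * k / 3 = k := by omega
  have e1 : (3 * k + 1) / 3 = k := by omega
  have e2 : (3 * k + 2) / 3 = k := by omega
  have f0 : 3 * k % 3 = 0 := by omega
  have f1 : (3 * k + 1) % 3 = 1 := by omega
  have f2 : (3 * k + 2) % 3 = 2 := by omega
  simp only [bx, wI, wt, wl, fl, e0, e1, e2, f0, f1, f2]
  generalize co k = c
  have h : (t0 c = 0 ∧ 1 ≤ c 0) ∨ (t0 c = 1 ∧ 1 ≤ c 1 ∧ c 0 = 0) ∨
      (t0 c = 2 ∧ 1 ≤ c 2 ∧ c 0 = 0 ∧ c 1 = 0) ∨
      (t0 c = 3 ∧ 1 ≤ c 3 ∧ c 0 = 0 ∧ c 1 = 0 ∧ c 2 = 0) ∨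
      (t0 c = 3 ∧ c 3 = 0 ∧ c 0 = 0 ∧ c 1 = 0 ∧ c 2 = 0) := by
    unfold t0
    split_ifs <;> omega
  have x1 : 1 ^^^ 1 = 0 ∧ 1 ^^^ 2 = 3 ∧ 1 ^^^ 3 = 2 ∧ 3 ^^^ 1 = 2 ∧ 3 ^^^ 2 = 1 ∧ 3 ^^^ 3 = 0 ∧
    2 ^^^ 1 = 3 ∧ 2 ^^^ 2 = 0 ∧ 2 ^^^ 3 = 1 := by decide
  rcases h with h | h | h | h | h <;> rcases hs (3 * k) with a | a <;>
    rcases hs (3 * k + 1) with b | b <;> rcases hs (3 * k + 2) with d | d <;>
    simp [h, a, b, d, x1, -mul_eq_mul_left_iff, -mul_eq_mul_right_iff] <;> ring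

theorem prod_three (f : ℕ → ℝ) (m : ℕ) :
    ∏ p ∈ range (3 * m), f p = ∏ k ∈ range m, f (3 * k) * f (3 * k + 1) * f (3 * k + 2) := by
  induction m with
  | zero => simp
  | succ m ih =>
    rw [mul_add, mul_one, prod_range_succ, prod_range_succ, prod_range_succ, ih, prod_range_succ]
    ring

theorem FS_eq_SP {n m : ℕ} {var : ℕ → ℕ} (co : ℕ → ℕ → ℕ) (T : ℕ → ℕ)
    (hvar : ∀ p < 3 * m, var p < n) :
    2 ^ n * FS (4 * ((3 * m + 1) * (n + 1)))
      (fun i j => nb var (wl co) (wt co) (dec (3 * m) i) (dec (3 * m) j) +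
        nb var (wl co) (wt co) (dec (3 * m) j) (dec (3 * m) i)) (fun _ _ => 1)
      (fun i => gd n (3 * m) (par m var co T) (dec (3 * m) i)) =
    (∏ k ∈ range m, max (wl co (3 * k)) 1 ^ 2 : ℕ) * SP n m var co T := by
  rw [FS_eq_H _ _ _ hvar, gadget hvar (par_le m var co T) fun i hi => by
    rw [wI, if_neg (by omega), if_neg (by omega), Nat.cast_one], SP, mul_sum]
  refine sum_congr rfl fun V _ => ?_
  rw [prod_product_right, prod_range_succ, prod_congr rfl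
    (g := fun p => sp V (var p) ^ fl co p) fun p hp => ?_, prod_three, mul_right_comm,
    ← prod_mul_distrib, prod_congr rfl fun k _ => rot co (fun p => sp V (var p)) (fun p => ?_) k,
    prod_mul_distrib, Nat.cast_prod]
  · simp only [par, if_true]
    ring
  · unfold sp
    split_ifs <;> simp
  · have := mem_range.1 hp
    rw [prod_eq_single_of_mem (var p) (mem_range.2 (hvar p this)) fun v _ h => ?_]
    · simp [par, this.ne]
    · simp [par, this.ne, h.symm]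

/-- **Spin systems with ternary constraints.** -/
theorem master2 {ι : Type} {code : ι → List ℕ} {Z : ι → ℝ} {n m Kd : List ℕ → ℕ}
    {var T : List ℕ → ℕ → ℕ} {co : List ℕ → ℕ → ℕ → ℕ} (hn : PT ∅ n) (hn' : PBd n) (hm : PT ∅ m)
    (hm' : PBd m) (h1 : PT ∅ fun p : List ℕ × ℕ => var p.1 p.2)
    (h2 : PT ∅ fun p : List ℕ × ℕ => T p.1 p.2)
    (h3 : PT ∅ fun p : List ℕ × ℕ × ℕ => co p.1 p.2.1 p.2.2) (h4 : PT ∅ Kd)
    (hv : ∀ x, ∀ p < 3 * m (code x), var (code x) p < n (code x)) (hK : ∀ x, 0 < Kd (code x))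
    (hZ : ∀ x, Kd (code x) * Z x =
      SP (n (code x)) (m (code x)) (var (code x)) (co (code x)) (T (code x))) : FPRAS code Z := by
  have c3 : ∀ t, PT ∅ fun p : List ℕ × ℕ => co p.1 p.2 t := fun t =>
    h3.comp (PT.fst'.pair (PT.snd'.pair (PT.const t)))
  have a0 : PT ∅ fun p : List ℕ × ℕ => t0 (co p.1 p.2) :=
    PT.ite (PT.decide_not (PT.eqNat (c3 0) (PT.const 0))) (PT.const 0)
      (PT.ite (PT.decide_not (PT.eqNat (c3 1) (PT.const 0))) (PT.const 1)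
        (PT.ite (PT.decide_not (PT.eqNat (c3 2) (PT.const 0))) (PT.const 2) (PT.const 3)))
  have d3 : PT ∅ fun p : List ℕ × ℕ => p.2 / 3 := PT.div PT.snd' (PT.const 3)
  have m3 : PT ∅ fun p : List ℕ × ℕ => p.2 % 3 := PT.mod PT.snd' (PT.const 3)
  have a0' := a0.comp (PT.fst'.pair d3)
  have a1 : PT ∅ fun p : List ℕ × ℕ => wl (co p.1) p.2 := h3.comp (PT.fst'.pair (d3.pair a0'))
  have a2 : PT ∅ fun p : List ℕ × ℕ => wt (co p.1) p.2 :=
    PT.mul a1 (h3.comp (PT.fst'.pair (d3.pair (PT.natXor (PT.ite (PT.eqNat m3 (PT.const 0))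
      (PT.const 1) (PT.sub (PT.const 4) m3)) a0'))))
  have a3 : PT ∅ fun p : List ℕ × ℕ => fl (co p.1) p.2 :=
    PT.ite (PT.decide_or (PT.eqNat a0' (PT.const 0)) (PT.eqNat (PT.add a0' m3) (PT.const 3)))
      (PT.const 1) (PT.const 0)
  have P3 : PT ∅ fun c => 3 * m c := PT.mul (PT.const 3) hm
  have a4 : PT ∅ fun p : List ℕ × ℕ => dec (3 * m p.1) p.2 :=
    have b := PT.add (P3.comp (PT.fst' : PT ∅ fun p : List ℕ × ℕ => p.1)) (PT.const 1)
    (PT.mod PT.snd' (PT.const 4)).pair ((PT.div (PT.div PT.snd' (PT.const 4)) b).pair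
      (PT.mod (PT.div PT.snd' (PT.const 4)) b))
  have a5 : PT ∅ fun p : List ℕ × Lb × Lb => nb (var p.1) (wl (co p.1)) (wt (co p.1)) p.2.1 p.2.2 :=
    have x1 : PT ∅ fun p : List ℕ × Lb × Lb => p.2.1.1 := PT.snd'.fst.fst
    have x2 : PT ∅ fun p : List ℕ × Lb × Lb => p.2.1.2.1 := PT.snd'.fst.snd.fst
    have x3 : PT ∅ fun p : List ℕ × Lb × Lb => p.2.1.2.2 := PT.snd'.fst.snd.snd
    have y1 : PT ∅ fun p : List ℕ × Lb × Lb => p.2.2.1 := PT.snd'.snd.fst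
    have y2 : PT ∅ fun p : List ℕ × Lb × Lb => p.2.2.2.1 := PT.snd'.snd.snd.fst
    have y3 : PT ∅ fun p : List ℕ × Lb × Lb => p.2.2.2.2 := PT.snd'.snd.snd.snd
    PT.ite (PT.eqNat x1 (PT.const 3)) (PT.ite (PT.eqNat y1 (PT.const 3))
      (PT.ite (PT.eqNat y3 (PT.add (PT.mul (PT.const 3) (PT.div x3 (PT.const 3)))
        (PT.mod (PT.add x3 (PT.const 1)) (PT.const 3)))) (a2.comp (PT.fst'.pair x3)) (PT.const 0))
      (PT.ite (PT.decide_and (PT.eqNat y1 (PT.const 0)) (PT.decide_and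
        (PT.eqNat y2 (h1.comp (PT.fst'.pair x3))) (PT.eqNat y3 x3))) (a1.comp (PT.fst'.pair x3))
        (PT.const 0)))
      (PT.ite (PT.decide_and (PT.eqNat y2 x2) (PT.decide_or
        (PT.decide_and (PT.eqNat x1 (PT.const 0)) (PT.decide_and (PT.eqNat y1 (PT.const 0))
          (PT.eqNat y3 (PT.add x3 (PT.const 1)))))
        (PT.decide_and (PT.lt x1 y1) (PT.decide_and (PT.lt y1 (PT.const 3)) (PT.eqNat y3 x3)))))
        (PT.const 1) (PT.const 0))
  have a6 : PT ∅ fun p : List ℕ × Lb =>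
      gd (n p.1) (3 * m p.1) (par (m p.1) (var p.1) (co p.1) (T p.1)) p.2 :=
    have x1 : PT ∅ fun p : List ℕ × Lb => p.2.1 := PT.snd'.fst
    have x2 : PT ∅ fun p : List ℕ × Lb => p.2.2.1 := PT.snd'.snd.fst
    have x3 : PT ∅ fun p : List ℕ × Lb => p.2.2.2 := PT.snd'.snd.snd
    have b := P3.comp (PT.fst' : PT ∅ fun p : List ℕ × Lb => p.1)
    PT.ite (PT.eqNat x1 (PT.const 3)) (PT.ite (PT.decide_and (PT.eqNat x2 (PT.const 0))
      (PT.lt x3 b)) (PT.const 1) (PT.const 0)) (PT.ite (PT.decide_and (PT.lt x1 (PT.const 3))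
        (PT.decide_and (PT.lt x2 (hn.comp PT.fst')) (PT.le x3 b)))
      (PT.ite (PT.eqNat x1 (PT.const 0)) (PT.add (PT.const 2) (PT.ite (PT.eqNat x3 b)
        (PT.min (h2.comp (PT.fst'.pair x2)) (PT.const 1)) (PT.ite
          (PT.eqNat (h1.comp (PT.fst'.pair x3)) x2) (a3.comp (PT.fst'.pair x3)) (PT.const 0))))
        (PT.const 1)) (PT.const 0))
  have u : PT ∅ fun p : List ℕ × ℕ × ℕ => dec (3 * m p.1) p.2.1 :=
    a4.comp (PT.fst'.pair PT.snd'.fst)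
  have v : PT ∅ fun p : List ℕ × ℕ × ℕ => dec (3 * m p.1) p.2.2 :=
    a4.comp (PT.fst'.pair PT.snd'.snd)
  refine master (n := fun c => 4 * ((3 * m c + 1) * (n c + 1))) (Kn := fun c => 2 ^ n c)
    (Kd := fun c => ((List.range (m c)).map fun k => max (wl (co c) (3 * k)) 1 ^ 2).prod * Kd c)
    (num := fun c i j => nb (var c) (wl (co c)) (wt (co c)) (dec (3 * m c) i) (dec (3 * m c) j) +
      nb (var c) (wl (co c)) (wt (co c)) (dec (3 * m c) j) (dec (3 * m c) i))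
    (den := fun _ _ _ => 1)
    (f := fun c i => gd (n c) (3 * m c) (par (m c) (var c) (co c) (T c)) (dec (3 * m c) i))
    (PT.mul (PT.const 4) (PT.mul (PT.add P3 (PT.const 1)) (PT.add hn (PT.const 1))))
    ((PBd.const 4).mul ((((PBd.const 3).mul hm').add (PBd.const 1)).mul (hn'.add (PBd.const 1))))
    (PT.add (a5.comp (PT.fst'.pair (u.pair v))) (a5.comp (PT.fst'.pair (v.pair u)))) (PT.const 1)
    (a6.comp (PT.fst'.pair a4)) (PT.pow (PT.const 2) hn hn')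
    (PT.mul (PT.prod (PT.map (f := fun c k => max (wl (co c) (3 * k)) 1 ^ 2) (PT.range hm hm')
      (PT.powConst (PT.max (a1.comp (PT.fst'.pair (PT.mul (PT.const 3) PT.snd'))) (PT.const 1))
        2))) h4) (fun c i _ => ?_) (fun _ _ _ _ _ => one_ne_zero) (fun x => ?_) fun x => ?_
  · have b1 : 0 < (3 * m c + 1) * (n c + 1) := by positivity
    have b2 := par_le (m c) (var c) (co c) (T c) (dec (3 * m c) i).2.1 (dec (3 * m c) i).2.2
    unfold gd
    split_ifs <;> omega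
  · rw [prod_list_range]
    exact Nat.mul_pos (prod_pos fun k _ => by positivity) (hK x)
  · rw [prod_list_range, Nat.cast_mul, mul_assoc, hZ, Nat.cast_pow, Nat.cast_ofNat,
      FS_eq_SP _ _ (hv x)]

end Vale.Agent.N308T
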